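import Mathlib

/-! Ricci flow on a manifold, written in the charts of its atlas. -/

open scoped Manifold ContDiff

namespace Vale.Agent.P244

section Coord

variable {E : Type} [NormedAddCommGroup E] [NormedSpace ℝ E]

/-- The derivative at `y`, in the direction `c`, of the coefficient `G(a,b)`. -/
noncomputable def dg (G : E → E →L[ℝ] E →L[ℝ] ℝ) (y c a b : E) : ℝ :=
  fderiv ℝ (fun x => G x a b) y c

/-- Christoffel map `Γ_y(v,w)` of the coordinate metric `G`: the vector given by the Koszul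
formula `2 G_y(Γ(v,w), z) = ∂_v G(w,z) + ∂_w G(v,z) - ∂_z G(v,w)` for all `z`. -/
noncomputable def chr (G : E → E →L[ℝ] E →L[ℝ] ℝ) (y v w : E) : E :=
  Classical.epsilon fun a : E => ∀ z, 2 * G y a z = dg G y v w z + dg G y w v z - dg G y z v w

/-- The curvature tensor `R(u,v)w` at `y`. -/
noncomputable def riem (G : E → E →L[ℝ] E →L[ℝ] ℝ) (y u v w : E) : E :=
  fderiv ℝ (fun x => chr G x v w) y u - fderiv ℝ (fun x => chr G x u w) y v +
    chr G y u (chr G y v w) - chr G y v (chr G y u w)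

end Coord

/-- The model space `ℝ^n`. -/
abbrev En (n : ℕ) : Type := EuclideanSpace ℝ (Fin n)

variable {n : ℕ}

/-- The Ricci tensor `Ric(v,w)`, the trace of `u ↦ R(u,v)w`. -/
noncomputable def ric (G : En n → En n →L[ℝ] En n →L[ℝ] ℝ) (y v w : En n) : ℝ :=
  ∑ i, riem G y (EuclideanSpace.single i 1) v w i

/-- The scalar curvature `g^{ij} Ric_{ij}`. -/
noncomputable def scal (G : En n → En n →L[ℝ] En n →L[ℝ] ℝ) (y : En n) : ℝ :=
  ∑ i, ∑ j,
    (Matrix.of fun a b => G y (EuclideanSpace.single a 1) (EuclideanSpace.single b 1))⁻¹ i j *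
      ric G y (EuclideanSpace.single i 1) (EuclideanSpace.single j 1)

variable {M : Type} [TopologicalSpace M] [ChartedSpace (En n) M]

/-- The coefficients of the metric `g` in the chart `e` (Mathlib's tangent space of `M` at a point
is the model space `ℝ^n`). -/
noncomputable def gc (g : M → En n →L[ℝ] En n →L[ℝ] ℝ)
    (e : OpenPartialHomeomorph M (En n)) (y : En n) : En n →L[ℝ] En n →L[ℝ] ℝ :=
  (g (e.symm y)).bilinearComp (mfderiv (𝓡 n) (𝓡 n) e.symm y : En n →L[ℝ] En n)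
    (mfderiv (𝓡 n) (𝓡 n) e.symm y : En n →L[ℝ] En n)

/-- `g(t)`, `0 ≤ t < T`, is a smooth Ricci flow on `M`. -/
def IsRicciFlow (g : ℝ → M → En n →L[ℝ] En n →L[ℝ] ℝ) (T : ℝ) : Prop :=
  (∀ t ∈ Set.Ico 0 T, ∀ m : M,
    (∀ v w, g t m v w = g t m w v) ∧ ∀ v, v ≠ 0 → 0 < g t m v v) ∧
  ∀ e ∈ atlas (En n) M, ∀ v w : En n,
    ContDiffOn ℝ ∞ (fun p : ℝ × En n => gc (g p.1) e p.2 v w) (Set.Ico 0 T ×ˢ e.target) ∧
    ∀ t ∈ Set.Ico 0 T, ∀ y ∈ e.target,
      HasDerivWithinAt (fun s => gc (g s) e y v w) (-2 * ric (gc (g t) e) y v w) (Set.Ico 0 T) t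

/-- The scalar curvature of `g(t)` is bounded on `M × [0,T)`. -/
def BddScal (g : ℝ → M → En n →L[ℝ] En n →L[ℝ] ℝ) (T : ℝ) : Prop :=
  ∃ C : ℝ, ∀ t ∈ Set.Ico 0 T, ∀ e ∈ atlas (En n) M, ∀ y ∈ e.target, |scal (gc (g t) e) y| ≤ C

/-- The flow `g` extends past `T` as a smooth Ricci flow on `M`. -/
def Extends (g : ℝ → M → En n →L[ℝ] En n →L[ℝ] ℝ) (T : ℝ) : Prop :=
  ∃ ε > 0, ∃ g' : ℝ → M → En n →L[ℝ] En n →L[ℝ] ℝ,
    IsRicciFlow g' (T + ε) ∧ ∀ t ∈ Set.Ico 0 T, g' t = g t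

/-- The unit sphere `S^n` in `ℝ^(n+1)`. -/
abbrev Sph (n : ℕ) : Type := Metric.sphere (0 : En (n + 1)) 1

end Vale.Agent.P244
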