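import Vale.Agent.P244.GeoStm

/-! P244, geometry: assembling the flow on the sphere. -/

open Set Filter
open scoped Manifold ContDiff Topology RealInnerProductSpace

set_option maxSynthPendingDepth 3

namespace Vale.Agent.P244.Geo

variable {n p q : ℕ}

theorem GeoAsm_X (hS : SphStmt) (S : Split n p q) {e : OpenPartialHomeomorph (Sph n) (En n)}
    (he : e ∈ atlas (En n) (Sph n)) : ContDiffOn ℝ ∞ (fun y => S.X (par e y)) e.target :=
  (S.π1.contDiff.comp_contDiffOn (hS.smooth n e he)).norm_sq ℝ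

theorem GeoAsm_form (hS : SphStmt) (S : Split n p q) {e : OpenPartialHomeomorph (Sph n) (En n)}
    (he : e ∈ atlas (En n) (Sph n)) {Y : Type} [NormedAddCommGroup Y] [NormedSpace ℝ Y] {s : Set Y}
    {π : Y → En n} (hπ : ContDiffOn ℝ ∞ π s) (hm : MapsTo π s e.target) {A B C : Y → ℝ}
    (hA : ContDiffOn ℝ ∞ A s) (hB : ContDiffOn ℝ ∞ B s) (hC : ContDiffOn ℝ ∞ C s) (v w : En n) :
    ContDiffOn ℝ ∞ (fun y => S.form (A y) (B y) (C y) (par e (π y)) (fderiv ℝ (par e) (π y) v)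
      (fderiv ℝ (par e) (π y) w)) s := by
  have h0 := (hS.smooth n e he).comp hπ hm
  have h1 : ∀ v, ContDiffOn ℝ ∞ (fun y => fderiv ℝ (par e) (π y) v) s := fun v =>
    (((hS.smooth n e he).fderiv_of_isOpen e.open_target inf_add_one).comp hπ hm).clm_apply
      contDiffOn_const
  have h2 : ∀ v, ContDiffOn ℝ ∞ (fun y => S.π1 (fderiv ℝ (par e) (π y) v)) s := fun v =>
    S.π1.contDiff.comp_contDiffOn (h1 v)
  have h3 : ∀ v, ContDiffOn ℝ ∞ (fun y => S.π2 (fderiv ℝ (par e) (π y) v)) s := fun v =>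
    S.π2.contDiff.comp_contDiffOn (h1 v)
  have h4 : ContDiffOn ℝ ∞ (fun y => S.π1 (par e (π y))) s := S.π1.contDiff.comp_contDiffOn h0
  simp only [Split.form_apply, Split.dX_apply]
  exact ((hA.mul ((h2 v).inner ℝ (h2 w))).add (hB.mul ((h3 v).inner ℝ (h3 w)))).add
    (hC.mul ((contDiffOn_const.mul (h4.inner ℝ (h2 v))).mul
      (contDiffOn_const.mul (h4.inner ℝ (h2 w)))))

theorem GeoAsm_flow (hR : RicStmt) (hS : SphStmt) (hO : OffStmt) (S : Split n p q) {T : ℝ}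
    {a b c : Fn} (h : Pol p q T a b c) : IsRicciFlow (fun t => S.met (a t) (b t) (c t)) T := by
  refine ⟨fun t ht m => ⟨hS.symm n p q S _ _ _ m, hS.pos n p q S _ _ _ (h.met t ht) m⟩,
    fun e he v w => ⟨?_, fun t ht y hy => ?_⟩⟩
  · have hX : ∀ {u : Fn}, JO T u →
        ContDiffOn ℝ ∞ (fun r : ℝ × En n => u r.1 (S.X (par e r.2))) (Ico 0 T ×ˢ e.target) :=
      fun hu => ContDiffOn.comp (f := fun r : ℝ × En n => (r.1, S.X (par e r.2))) hu
        (contDiffOn_fst.prodMk ((GeoAsm_X hS S he).comp contDiffOn_snd fun r hr => hr.2))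
        fun r hr => ⟨hr.1, hS.mem n p q S _⟩
    exact (GeoAsm_form hS S he contDiffOn_snd (fun r hr => hr.2) (hX h.sa) (hX h.sb) (hX h.sc)
      v w).congr fun r hr => hS.gc_eq n p q S _ _ _ e he r.2 hr.2 v w
  obtain ⟨T0, h1, h2⟩ := exists_between ht.2
  have h0 : 0 < T0 := ht.1.trans_lt h1
  have hmem : ∀ y, S.X (par e y) ∈ I := fun y => hS.mem n p q S _
  have hX : ∀ {u : Fn}, JO T u →
      ContDiffOn ℝ ∞ (fun y => dt T0 u t (S.X (par e y))) e.target := fun hu =>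
    ContDiffOn.comp (((hu.js h2).dt h0).sm ⟨ht.1, h1.le⟩) (GeoAsm_X hS S he) fun y _ => hmem y
  have cQ := (GeoAsm_form hS S he contDiffOn_id (fun y hy => hy) (hX h.sa) (hX h.sb) (hX h.sc)
    v w).continuousOn
  have cR : ContinuousOn (fun y => -2 * ric (gc (S.met (a t) (b t) (c t)) e) y v w) e.target :=
    continuousOn_const.mul (hR.cont n _ _ (hS.cm n p q S _ _ _ (h.met t ht) e he) v w)
  have key := EqOn.of_subset_closure (fun y hy => ?_) cQ cR (fun y hy => hy.1)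
    (hS.dense n p q S e he) hy
  · simp only [id] at key
    rw [← key]
    have e1 : ∀ s, gc (S.met (a s) (b s) (c s)) e y v w = _ := fun s =>
      hS.gc_eq n p q S _ _ _ e he y hy v w
    simp only [e1, Split.form_apply]
    exact (((h.sa.hasT h2 ht.1 h1 (hmem y)).mul_const _).add
      ((h.sb.hasT h2 ht.1 h1 (hmem y)).mul_const _)).add
      ((h.sc.hasT h2 ht.1 h1 (hmem y)).mul_const _)
  · have u := uniqueDiffOn_Ico 0 T t ht
    have da := h.sa.hasT h2 ht.1 h1 (hmem y)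
    have db := h.sb.hasT h2 ht.1 h1 (hmem y)
    have dc := h.sc.hasT h2 ht.1 h1 (hmem y)
    have ea := u.eq_deriv _ da (h.eqa t ht _ hy.2)
    have eb := u.eq_deriv _ db (h.eqb t ht _ hy.2)
    have ec := u.eq_deriv _ ((dc.add (da.div_const _)).add (db.div_const _)) (h.eqA t ht _ hy.2)
    have ec' := eq_sub_of_add_eq (eq_sub_of_add_eq ec)
    simp only [id, (hO n p q S _ _ _ (h.met t ht) e he y hy.1 _ rfl hy.2).1 v w, Split.form_apply,
      ec', ea, eb]
    ring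

theorem asm (hR : RicStmt) (hS : SphStmt) (hO : OffStmt) : AsmStmt := by
  intro p q T a b c hq h
  obtain ⟨S⟩ := hS.split p q
  refine ⟨fun t => S.met (a t) (b t) (c t), GeoAsm_flow hR hS hO S h, ?_, ?_⟩
  · obtain ⟨C, hC⟩ := h.bdd
    refine ⟨C, fun t ht e he y hy => ?_⟩
    have c1 := (hR.conts _ _ _ (hS.cm _ p q S _ _ _ (h.met t ht) e he) y hy).abs
    refine ContinuousWithinAt.closure_le (hS.dense _ p q S e he hy) (c1.mono fun z hz => hz.1)
      continuousWithinAt_const fun z hz => ?_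
    rw [(hO _ p q S _ _ _ (h.met t ht) e he z hz.1 _ rfl hz.2).2]
    exact hC t ht _ hz.2
  rintro ⟨ε, hε, g', hg', e'⟩
  have inn : ∀ v w, ⟪S.ι2 v, S.ι2 w⟫ = ⟪v, w⟫ := fun v w => by
    rw [S.inn, S.e12, S.e22, S.e22, inner_zero_left, zero_add]
  set u0 : En (q + 1) := EuclideanSpace.single 0 1 with hu0
  set u1 : En (q + 1) := EuclideanSpace.single ⟨1, by omega⟩ 1 with hu1
  have i0 : ⟪u0, u0⟫ = 1 := by simp [hu0]
  have i1 : ⟪u1, u1⟫ = 1 := by simp [hu1]
  have i2 : ⟪u0, u1⟫ = 0 := by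
    simp [hu0, hu1, EuclideanSpace.inner_single_left, Fin.ext_iff]
  have hm : S.ι2 u0 ∈ Metric.sphere (0 : En (p + q + 1 + 1)) 1 := by
    rw [mem_sphere_zero_iff_norm, norm_eq_sqrt_real_inner, inn, i0, Real.sqrt_one]
  set m0 : Sph (p + q + 1) := ⟨_, hm⟩ with hm0
  set e := chartAt (En (p + q + 1)) m0 with he0
  have he : e ∈ atlas (En (p + q + 1)) (Sph (p + q + 1)) := chart_mem_atlas _ _
  have hs : m0 ∈ e.source := mem_chart_source _ _
  have hy : e m0 ∈ e.target := e.map_source hs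
  have hp : par e (e m0) = S.ι2 u0 := by rw [par, e.left_inv hs]
  obtain ⟨v0, hv0⟩ := ((hS.tang _ e he _ hy).2 (S.ι2 u1)).1 (by rw [hp, inn, i2])
  have hne : v0 ≠ 0 := fun h0 => by
    have := inn u1 u1
    rw [← hv0, h0, map_zero, inner_zero_left, i1] at this
    exact zero_ne_one this
  have val : ∀ t, gc (S.met (a t) (b t) (c t)) e (e m0) v0 v0 = b t 0 := fun t => by
    rw [hS.gc_eq _ p q S _ _ _ e he _ hy, hv0, hp, Split.form_apply, Split.dX_apply, Split.X]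
    simp only [S.e12, S.e22, i1]
    simp
  have hsub : Icc 0 T ⊆ Ico 0 (T + ε) := fun t ht => ⟨ht.1, by linarith [ht.2]⟩
  have cont : ContinuousOn (fun t => gc (g' t) e (e m0) v0 v0) (Icc 0 T) := fun t ht =>
    ((hg'.2 e he v0 v0).2 t (hsub ht) _ hy).continuousWithinAt.mono hsub
  obtain ⟨m, hm0', hm1⟩ := isCompact_Icc.exists_forall_le' cont (a := 0) fun t ht =>
    (hg'.1 t (hsub ht) _).2 (P255.dS e (e m0) v0) fun h0 =>
      hne (by rw [← P255.dC_dS he hy v0, h0, map_zero])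
  obtain ⟨t, ht, hlt⟩ := h.deg m hm0'
  have := hm1 t ⟨ht.1, ht.2.le⟩
  rw [e' t ht, val] at this
  linarith

end Vale.Agent.P244.Geo
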