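import Vale.Agent.P244.GeoStm

/-! P244, geometry: the concrete system gives a flow in a gauge. -/

open Set Filter
open scoped ContDiff Topology

namespace Vale.Agent.P244.Geo

theorem GeoFlow_div {g h : ℝ → ℝ} (hg : ContDiff ℝ ∞ g) (hh : ContDiff ℝ ∞ h) {U : Set ℝ}
    (hU : IsOpen U) (h0 : ∀ x ∈ U, g x = 0) (h1 : ∀ x ∉ U, h x ≠ 0) :
    ContDiff ℝ ∞ fun x => g x / h x := by
  refine contDiff_iff_contDiffAt.2 fun x => ?_
  by_cases hx : x ∈ U
  · refine (contDiffAt_const (c := 0)).congr_of_eventuallyEq ?_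
    filter_upwards [hU.mem_nhds hx] with y hy
    simp [h0 y hy]
  · exact hg.contDiffAt.div hh.contDiffAt (h1 x hx)

theorem GeoFlow_der {T : ℝ} {W : Fn} (hT : 0 < T) (h : JS T W) {t x : ℝ} (ht : t ∈ Icc 0 T)
    (hx : x ∈ Ioo (0 : ℝ) 1) :
    deriv (W t) x = dx W t x ∧ deriv (deriv (W t)) x = dx (dx W) t x := by
  refine ⟨(h.hasX ht hx).deriv, ?_⟩
  have e : deriv (W t) =ᶠ[𝓝 x] dx W t := by
    filter_upwards [isOpen_Ioo.mem_nhds hx] with y hy using (h.hasX ht hy).deriv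
  rw [e.deriv_eq]
  exact ((h.dx hT).hasX ht hx).deriv

theorem flow (hM : MidStmt) (hD : DictStmt) (hG : GeqStmt) (hT : TransStmt) : FlowStmt := by
  intro d tm f0 f hd htm hs hb hdeg
  have J := fun T hT => hG.js d hd f0 T f (hs T hT).sol
  have g1 : ContDiff ℝ ∞ fun x => gam x / x ^ 2 :=
    GeoFlow_div contDiff_gam (by fun_prop) (isOpen_Iio (a := 1 / 2))
      (fun x hx => gam_zero (le_of_lt hx)) fun x hx => by
        have : 1 / 2 ≤ x := not_lt.1 hx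
        positivity
  have n1 : ∀ x ∉ Ioi (3 / 4 : ℝ), (1 - x) ^ 2 ≠ 0 := fun x hx => by
    have : x ≤ 3 / 4 := not_lt.1 hx
    exact pow_ne_zero 2 (by linarith)
  have g2 : ContDiff ℝ ∞ fun x => (ph0 d x - (1 - x)) / (1 - x) ^ 2 :=
    GeoFlow_div ((contDiff_ph0 d).sub (by fun_prop)) (by fun_prop) isOpen_Ioi
      (fun x (hx : 3 / 4 < x) => by rw [ph0_right d (by linarith), sub_self]) n1
  have g3 : ContDiff ℝ ∞ fun x => (1 - gam x) / (1 - x) ^ 2 :=
    GeoFlow_div (contDiff_const.sub contDiff_gam) (by fun_prop) isOpen_Ioi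
      (fun x (hx : 3 / 4 < x) => by rw [gam_one hx.le, sub_self]) n1
  set u : Fn := fun t x => gam x / x ^ 2 * f 0 t x with hu
  set v : Fn := fun t x =>
    (ph0 d x - (1 - x)) / (1 - x) ^ 2 + (1 - gam x) / (1 - x) ^ 2 * f 0 t x with hv
  have eP : fP u = PsF f := by
    funext t x
    simp only [fP, hu, PsF, evF, PsP, Ps, bs_pt, val, sl]
    rcases eq_or_ne x 0 with h | h
    · simp [h, gam_zero (x := 0) (by norm_num)]
    · field_simp
  have eR' : fR v = PhF d f := by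
    funext t x
    simp only [fR, hv, PhF, evF, PhP, Ph, bs_pt, val, sl]
    rcases eq_or_ne (1 - x) 0 with h | h
    · have h1 : x = 1 := by linarith
      simp [h1, gam_one (x := 1) (by norm_num), ph0_right d (x := 1) (by norm_num)]
    · field_simp; ring
  have eZ : fZ (f 2) = ZF f := rfl
  have eJ : fJ (evF (jj d) f) = JF d f := rfl
  have mid : ∀ t ∈ Ico 0 tm, ∃ S ∈ Ioo 0 tm, t < S := fun t ht =>
    ⟨(t + tm) / 2, ⟨by linarith [ht.1], by linarith [ht.2]⟩, by linarith [ht.2]⟩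
  have hmem : ∀ t ∈ Ico 0 tm, ∀ x ∈ I, (x, val (sl f t) x) ∈ Om d := fun t ht x hx => by
    obtain ⟨S, hS, h1⟩ := mid t ht
    exact (hs S hS).sol.mem t ⟨ht.1, h1.le⟩ x hx
  have key : ∀ S ∈ Ioo 0 tm, ∀ t ∈ Icc 0 S, ∀ x ∈ Ioo (0 : ℝ) 1,
      e0 (d + 1) 2 (ZF f t) (PsF f t) (PhF d f t) x = evF (E0 d) f t x ∧
      e1 (d + 1) 2 (ZF f t) (PsF f t) (PhF d f t) x = evF (E1 d) f t x ∧
      e2 (d + 1) 2 (ZF f t) (PsF f t) (PhF d f t) x = evF (E2 d) f t x := by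
    intro S hS t ht x hx
    have hx' : x ∈ I := Ioo_subset_Icc_self hx
    have m := hM.k d hd (pt (sl f t) x) ((hs S hS).sol.mem t ht x hx') hx
    have dc := hD d hd _ ((hs S hS).prof ht) x hx'
    have z := (GeoFlow_der hS.1 (J S hS).z ht hx).1.trans dc.zz
    obtain ⟨p1, p2⟩ := GeoFlow_der hS.1 (J S hS).ps ht hx
    obtain ⟨r1, r2⟩ := GeoFlow_der hS.1 (J S hS).ph ht hx
    have p3 : ZF f t x * dx (dx (PsF f)) t x = _ := dc.ps2
    have r3 : ZF f t x * dx (dx (PhF d f)) t x = _ := dc.ph2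
    have k1 : kG (ZF f t) (PsF f t) x = K1m (pt (sl f t) x) := by
      rw [kG, z, p1.trans dc.ps, p2, p3]; rfl
    have k2 : kG (ZF f t) (PhF d f t) x = K2m d (pt (sl f t) x) := by
      rw [kG, z, r1.trans dc.ph, r2, r3]; rfl
    have l1 : lG (ZF f t) (PsF f t) x = L1m (pt (sl f t) x) := by rw [lG, p1.trans dc.ps]; rfl
    have l2 : lG (ZF f t) (PhF d f t) x = L2m d (pt (sl f t) x) := by rw [lG, r1.trans dc.ph]; rfl
    have mm : mG (ZF f t) (PsF f t) (PhF d f t) x = Mm d (pt (sl f t) x) := by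
      rw [mG, p1.trans dc.ps, r1.trans dc.ph]; rfl
    simp only [e0, e1, e2, k1, k2, l1, l2, mm, evF, E0, E1, E2, m.k1, m.k2, m.l1, m.l2, m.mm]
    refine ⟨trivial, by ring, by ring⟩
  refine ⟨f 2, u, v, evF (jj d) f, htm, JO.of_js fun S hS => (hs S hS).sol.js 2,
    JO.of_js fun S hS => (JS.ofX g1.contDiffOn).mul ((hs S hS).sol.js 0),
    JO.of_js fun S hS => (JS.ofX g2.contDiffOn).add
      ((JS.ofX g3.contDiffOn).mul ((hs S hS).sol.js 0)),
    JO.of_js fun S hS => (J S hS).jj, fun t ht x hx => (hmem t ht x hx).1,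
    fun t ht x hx => ?_, fun t ht x hx => ?_, fun t ht x hx => ?_, fun t ht x hx => ?_,
    fun t ht x hx => ?_, ?_, by rwa [eR']⟩
  · rcases hx.1.lt_or_eq with h0 | h0
    · have h1 : 0 < PsF f t x := PsP_pos (hmem t ht x hx) h0
      rw [← eP, fP] at h1
      exact (mul_pos_iff_of_pos_left h0).1 (by linarith)
    · simp [← h0]
  · rcases hx.2.lt_or_eq with h0 | h0
    · have h1 : 0 < PhF d f t x := PhP_pos (hmem t ht x hx) h0
      rw [← eR', fR] at h1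
      exact (mul_pos_iff_of_pos_left (sub_pos.2 h0)).1 (by linarith)
    · simp [h0]
  · obtain ⟨S, hS, h1⟩ := mid t ht
    have ht' : t ∈ Icc 0 S := ⟨ht.1, h1.le⟩
    have hx' : x ∈ I := Ioo_subset_Icc_self hx
    rw [eZ, eP, eR', eJ, (key S hS t ht' x hx).1, (GeoFlow_der hS.1 (J S hS).z ht' hx).1,
      (GeoFlow_der (W := JF d f) hS.1 ((JS.ofX contDiff_om.contDiffOn).mul (J S hS).jj) ht' hx).1]
    refine ((JO.of_js fun S hS => (J S hS).z).hasT hS.2 ht.1 h1 hx').congr_deriv ?_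
    linarith [(hT d hd f0 S f (hs S hS) t ht' x hx').2.2]
  · obtain ⟨S, hS, h1⟩ := mid t ht
    have ht' : t ∈ Icc 0 S := ⟨ht.1, h1.le⟩
    have hx' : x ∈ I := Ioo_subset_Icc_self hx
    rw [eZ, eP, eR', eJ, (key S hS t ht' x hx).2.1, (GeoFlow_der hS.1 (J S hS).ps ht' hx).1]
    refine ((JO.of_js fun S hS => (J S hS).ps).hasT hS.2 ht.1 h1 hx').congr_deriv ?_
    linarith [(hT d hd f0 S f (hs S hS) t ht' x hx').1]
  · obtain ⟨S, hS, h1⟩ := mid t ht
    have ht' : t ∈ Icc 0 S := ⟨ht.1, h1.le⟩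
    have hx' : x ∈ I := Ioo_subset_Icc_self hx
    rw [eZ, eP, eR', eJ, (key S hS t ht' x hx).2.2, (GeoFlow_der hS.1 (J S hS).ph ht' hx).1]
    refine ((JO.of_js fun S hS => (J S hS).ph).hasT hS.2 ht.1 h1 hx').congr_deriv ?_
    linarith [(hT d hd f0 S f (hs S hS) t ht' x hx').2.1]
  · obtain ⟨C, hC⟩ := hb
    refine ⟨C, fun t ht x hx => ?_⟩
    obtain ⟨S, hS, h1⟩ := mid t ht
    obtain ⟨k0, k1, k2⟩ := key S hS t ⟨ht.1, h1.le⟩ x hx
    rw [eZ, eP, eR', eR, k0, k1, k2]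
    exact hC t ht x hx

end Vale.Agent.P244.Geo
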