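import Vale.Agent.P244.GeoStm

/-! Naturality of the Ricci tensor. -/

open Set Filter
open scoped Manifold ContDiff Topology RealInnerProductSpace

set_option maxSynthPendingDepth 3

namespace Vale.Agent.P244.Geo

open Vale.Agent.P255 (CM chrL)

variable {E E' : Type} [NormedAddCommGroup E] [NormedSpace ℝ E] [NormedAddCommGroup E']
  [NormedSpace ℝ E'] {G : E → E →L[ℝ] E →L[ℝ] ℝ} {G' : E' → E' →L[ℝ] E' →L[ℝ] ℝ} {U : Set E}
  {U' : Set E'} {τ : E' → E}

theorem GeoNat_d {F : Type} [NormedAddCommGroup F] [NormedSpace ℝ F] {f : E' → F}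
    (hU : IsOpen U') (hf : ContDiffOn ℝ ∞ f U') {y : E'} (hy : y ∈ U') :
    HasFDerivAt f (fderiv ℝ f y) y :=
  ((hf.contDiffAt (hU.mem_nhds hy)).differentiableAt (by simp)).hasFDerivAt

theorem GeoNat_s {F : Type} [NormedAddCommGroup F] [NormedSpace ℝ F] {f : E' → F}
    (hU : IsOpen U') (hf : ContDiffOn ℝ ∞ f U') : ContDiffOn ℝ ∞ (fderiv ℝ f) U' :=
  hf.fderiv_of_isOpen hU (by simp)

theorem GeoNat_sym {F : Type} [NormedAddCommGroup F] [NormedSpace ℝ F] {f : E' → F}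
    (hU : IsOpen U') (hf : ContDiffOn ℝ ∞ f U') {y : E'} (hy : y ∈ U') (a b : E') :
    fderiv ℝ (fderiv ℝ f) y a b = fderiv ℝ (fderiv ℝ f) y b a :=
  (((hf.contDiffAt (hU.mem_nhds hy)).of_le
    (WithTop.coe_le_coe.2 (le_top : (2 : ℕ∞) ≤ ⊤))).isSymmSndFDerivAt (by simp)).eq a b

theorem GeoNat_iso (h : CM G U) (h' : CM G' U') (hτ : ContDiffOn ℝ ∞ τ U') (hm : MapsTo τ U' U)
    (hiso : ∀ y ∈ U', ∀ v w, G' y v w = G (τ y) (fderiv ℝ τ y v) (fderiv ℝ τ y w))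
    {y : E'} (hy : y ∈ U') (c a b : E') :
    fderiv ℝ G' y c a b =
      fderiv ℝ G (τ y) (fderiv ℝ τ y c) (fderiv ℝ τ y a) (fderiv ℝ τ y b) +
        G (τ y) (fderiv ℝ (fderiv ℝ τ) y c a) (fderiv ℝ τ y b) +
        G (τ y) (fderiv ℝ τ y a) (fderiv ℝ (fderiv ℝ τ) y c b) := by
  have h1 := ((GeoNat_d h'.isOpen h'.smooth hy).clm_apply (hasFDerivAt_const a y)).clm_apply
    (hasFDerivAt_const b y)
  have h2 := (GeoNat_d h.isOpen h.smooth (hm hy)).comp y (GeoNat_d h'.isOpen hτ hy)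
  have h3 := fun u : E' => (GeoNat_d h'.isOpen (GeoNat_s h'.isOpen hτ) hy).clm_apply
    (hasFDerivAt_const u y)
  have h4 := (h2.clm_apply (h3 a)).clm_apply (h3 b)
  have h5 : (fun x => G' x a b) =ᶠ[𝓝 y]
      fun x => (G ∘ τ) x (fderiv ℝ τ x a) (fderiv ℝ τ x b) :=
    Filter.mem_of_superset (h'.isOpen.mem_nhds hy) fun x hx => hiso x hx a b
  have h6 := DFunLike.congr_fun (h1.unique (h4.congr_of_eventuallyEq h5)) c
  simp only [add_apply, ContinuousLinearMap.comp_apply,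
    ContinuousLinearMap.flip_apply, zero_apply, map_zero, zero_add,
    Function.comp_apply] at h6
  linarith

variable [FiniteDimensional ℝ E] [FiniteDimensional ℝ E']

theorem GeoNat_bij (hd : Module.finrank ℝ E' = Module.finrank ℝ E) (h' : CM G' U')
    (hiso : ∀ y ∈ U', ∀ v w, G' y v w = G (τ y) (fderiv ℝ τ y v) (fderiv ℝ τ y w))
    {y : E'} (hy : y ∈ U') : Function.Bijective (fderiv ℝ τ y) := by
  have hinj : Function.Injective (fderiv ℝ τ y).toLinearMap := by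
    rw [injective_iff_map_eq_zero]
    intro a ha
    by_contra h0
    have h1 := h'.pos y hy a h0
    have h2 : fderiv ℝ τ y a = 0 := ha
    rw [hiso y hy, h2, map_zero] at h1
    exact lt_irrefl _ h1
  exact ⟨hinj, (LinearMap.injective_iff_surjective_of_finrank_eq_finrank hd).1 hinj⟩

theorem GeoNat_chr (hd : Module.finrank ℝ E' = Module.finrank ℝ E) (h : CM G U) (h' : CM G' U')
    (hτ : ContDiffOn ℝ ∞ τ U') (hm : MapsTo τ U' U)
    (hiso : ∀ y ∈ U', ∀ v w, G' y v w = G (τ y) (fderiv ℝ τ y v) (fderiv ℝ τ y w))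
    {y : E'} (hy : y ∈ U') (v w : E') :
    fderiv ℝ (fderiv ℝ τ) y v w + chrL G (τ y) (fderiv ℝ τ y v) (fderiv ℝ τ y w) =
      fderiv ℝ τ y (chrL G' y v w) := by
  rw [h.chrL_apply (hm hy), h'.chrL_apply hy]
  have hsym := GeoNat_sym h'.isOpen hτ hy
  refine h.ext (hm hy) fun z' => ?_
  obtain ⟨z, rfl⟩ := (GeoNat_bij hd h' hiso hy).2 z'
  have k1 := h'.koszul hy v w z
  have k2 := h.koszul (hm hy) (fderiv ℝ τ y v) (fderiv ℝ τ y w) (fderiv ℝ τ y z)
  rw [GeoNat_iso h h' hτ hm hiso hy, GeoNat_iso h h' hτ hm hiso hy, GeoNat_iso h h' hτ hm hiso hy,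
    hiso y hy, hsym w v, hsym z v, hsym z w,
    h.symm _ (hm hy) (fderiv ℝ (fderiv ℝ τ) y v z)] at k1
  rw [map_add, add_apply]
  linarith

theorem GeoNat_dchr (hd : Module.finrank ℝ E' = Module.finrank ℝ E) (h : CM G U) (h' : CM G' U')
    (hτ : ContDiffOn ℝ ∞ τ U') (hm : MapsTo τ U' U)
    (hiso : ∀ y ∈ U', ∀ v w, G' y v w = G (τ y) (fderiv ℝ τ y v) (fderiv ℝ τ y w))
    {y : E'} (hy : y ∈ U') (u v w : E') :
    fderiv ℝ (fderiv ℝ (fderiv ℝ τ)) y u v w +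
      (fderiv ℝ (chrL G) (τ y) (fderiv ℝ τ y u) (fderiv ℝ τ y v) (fderiv ℝ τ y w) +
        chrL G (τ y) (fderiv ℝ (fderiv ℝ τ) y u v) (fderiv ℝ τ y w) +
        chrL G (τ y) (fderiv ℝ τ y v) (fderiv ℝ (fderiv ℝ τ) y u w)) =
      fderiv ℝ (fderiv ℝ τ) y u (chrL G' y v w) + fderiv ℝ τ y (fderiv ℝ (chrL G') y u v w) := by
  have s1 := GeoNat_s h'.isOpen hτ
  have d1 := GeoNat_d h'.isOpen hτ hy
  have d2 := GeoNat_d h'.isOpen s1 hy
  have d3 := GeoNat_d h'.isOpen (GeoNat_s h'.isOpen s1) hy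
  have c1 := (GeoNat_d h.isOpen h.contDiffOn_chrL (hm hy)).comp y d1
  have c2 := GeoNat_d h'.isOpen h'.contDiffOn_chrL hy
  have h3 := fun a : E' => d2.clm_apply (hasFDerivAt_const a y)
  have l := ((d3.clm_apply (hasFDerivAt_const v y)).clm_apply (hasFDerivAt_const w y)).add
    ((c1.clm_apply (h3 v)).clm_apply (h3 w))
  have r := d2.clm_apply ((c2.clm_apply (hasFDerivAt_const v y)).clm_apply (hasFDerivAt_const w y))
  have h6 := DFunLike.congr_fun (l.unique (r.congr_of_eventuallyEq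
    (Filter.mem_of_superset (h'.isOpen.mem_nhds hy) fun x hx =>
      GeoNat_chr hd h h' hτ hm hiso hx v w))) u
  simp only [add_apply, ContinuousLinearMap.comp_apply,
    ContinuousLinearMap.flip_apply, zero_apply, map_zero, zero_add,
    Function.comp_apply] at h6
  rw [add_comm (fderiv ℝ (fderiv ℝ τ) y u (chrL G' y v w)), ← h6]
  abel

theorem GeoNat_riem (hd : Module.finrank ℝ E' = Module.finrank ℝ E) (h : CM G U) (h' : CM G' U')
    (hτ : ContDiffOn ℝ ∞ τ U') (hm : MapsTo τ U' U)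
    (hiso : ∀ y ∈ U', ∀ v w, G' y v w = G (τ y) (fderiv ℝ τ y v) (fderiv ℝ τ y w))
    {y : E'} (hy : y ∈ U') (u v w : E') :
    fderiv ℝ τ y (riemL G' y v w u) =
      riemL G (τ y) (fderiv ℝ τ y v) (fderiv ℝ τ y w) (fderiv ℝ τ y u) := by
  have k := GeoNat_chr hd h h' hτ hm hiso hy
  have k' : ∀ a b, fderiv ℝ (fderiv ℝ τ) y a b = fderiv ℝ τ y (chrL G' y a b) -
      chrL G (τ y) (fderiv ℝ τ y a) (fderiv ℝ τ y b) := fun a b => eq_sub_of_add_eq (k a b)
  have a1 := GeoNat_dchr hd h h' hτ hm hiso hy u v w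
  have a2 := GeoNat_dchr hd h h' hτ hm hiso hy v u w
  have s3 : fderiv ℝ (fderiv ℝ (fderiv ℝ τ)) y u v = fderiv ℝ (fderiv ℝ (fderiv ℝ τ)) y v u :=
    GeoNat_sym h'.isOpen (GeoNat_s h'.isOpen hτ) hy u v
  rw [s3, GeoNat_sym h'.isOpen hτ hy u v, k' u w, k' u (chrL G' y v w)] at a1
  rw [k' v w, k' v (chrL G' y u w)] at a2
  simp only [riemL, sub_apply, add_apply, ContinuousLinearMap.flip_apply,
    ContinuousLinearMap.comp_apply, map_add, map_sub] at a1 a2 ⊢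
  have b1 := eq_sub_of_add_eq' a1.symm
  have b2 := eq_sub_of_add_eq' a2.symm
  rw [b1, b2]
  have e1 := k v w
  have e2 := k u w
  rw [← e1, ← e2]
  simp only [map_add]
  abel

theorem nat : NatStmt := by
  intro E E' _ _ _ _ _ _ G G' U U' τ hd h h' hτ hm hiso y hy
  have hb := GeoNat_bij hd h' hiso hy
  refine ⟨hb, fun v w => ?_⟩
  set T := LinearEquiv.ofBijective (fderiv ℝ τ y).toLinearMap hb with hT
  unfold ricT
  rw [← LinearMap.trace_conj' _ T]
  congr 1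
  refine LinearMap.ext fun x => ?_
  obtain ⟨x, rfl⟩ := T.surjective x
  rw [LinearEquiv.conj_apply_apply, T.symm_apply_apply]
  exact GeoNat_riem hd h h' hτ hm hiso hy x v w

end Vale.Agent.P244.Geo
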