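import Vale.Agent.P244.GeoOffA

/-! The Ricci tensor off the focal spheres. -/

open Set Filter
open scoped Manifold ContDiff Topology RealInnerProductSpace

set_option maxSynthPendingDepth 3

namespace Vale.Agent.P244.Geo

open Vale.Agent.P255 (CM chrL)

theorem GeoOff_frame (k : ℕ) (ξ : En (k + 1)) {r : ℝ} (hr : 0 < r) (h : ‖ξ‖ ^ 2 = r) :
    ∃ m : En (k + 1), √r • m = ξ ∧ GeoOff_Fr (ℝ ∙ m)ᗮ.subtypeL m ∧
      Module.finrank ℝ (ℝ ∙ m)ᗮ = k := by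
  have hs : 0 < √r := Real.sqrt_pos.2 hr
  have h1 : ⟪(√r)⁻¹ • ξ, (√r)⁻¹ • ξ⟫ = 1 := by
    rw [real_inner_smul_left, real_inner_smul_right, real_inner_self_eq_norm_sq, h]
    have := Real.mul_self_sqrt hr.le
    field_simp
    nlinarith
  refine ⟨(√r)⁻¹ • ξ, by rw [smul_smul, mul_inv_cancel₀ hs.ne', one_smul], ⟨fun u v => rfl,
    fun u => Submodule.mem_orthogonal_singleton_iff_inner_right.1 u.2, h1⟩, ?_⟩
  haveI : Fact (Module.finrank ℝ (En (k + 1)) = k + 1) := ⟨finrank_euclideanSpace_fin⟩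
  refine Submodule.finrank_orthogonal_span_singleton (n := k) fun h0 => ?_
  rw [h0] at h1
  simp at h1

theorem GeoOff_smA {a b c : ℝ → ℝ} (h : Met a b c) : ContDiffOn ℝ ∞ (gA a b c) (Ioo 0 1) ∧
    ContDiffOn ℝ ∞ (gP a) (Ioo 0 1) ∧ ContDiffOn ℝ ∞ (gR b) (Ioo 0 1) := by
  have ha : ContDiffOn ℝ ∞ a (Ioo 0 1) := ContDiffOn.mono h.sa Ioo_subset_Icc_self
  have hb : ContDiffOn ℝ ∞ b (Ioo 0 1) := ContDiffOn.mono h.sb Ioo_subset_Icc_self
  have hc : ContDiffOn ℝ ∞ c (Ioo 0 1) := ContDiffOn.mono h.sc Ioo_subset_Icc_self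
  refine ⟨(hc.add (ha.div (contDiffOn_const.mul contDiffOn_id) fun x hx => ?_)).add
    (hb.div (contDiffOn_const.mul (contDiffOn_const.sub contDiffOn_id)) fun x hx => ?_),
    contDiffOn_id.mul ha, (contDiffOn_const.sub contDiffOn_id).mul hb⟩
  · exact mul_ne_zero four_ne_zero hx.1.ne'
  · exact mul_ne_zero four_ne_zero (sub_pos.2 hx.2).ne'

theorem GeoOff_diag (E1 E2 : Type) [AddCommGroup E1] [Module ℝ E1] [Module.Finite ℝ E1]
    [AddCommGroup E2] [Module ℝ E2] [Module.Finite ℝ E2] (α β γ : ℝ) :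
    ∃ D : ℝ × E1 × E2 →ₗ[ℝ] ℝ × E1 × E2, (∀ v, D v = (α * v.1, β • v.2.1, γ • v.2.2)) ∧
      LinearMap.trace ℝ _ D = α + Module.finrank ℝ E1 * β + Module.finrank ℝ E2 * γ := by
  refine ⟨LinearMap.prodMap (α • LinearMap.id) (LinearMap.prodMap (β • LinearMap.id)
    (γ • LinearMap.id)), fun v => rfl, ?_⟩
  rw [LinearMap.trace_prodMap', LinearMap.trace_prodMap']
  simp only [map_smul, LinearMap.trace_id, Module.finrank_self, smul_eq_mul]
  push_cast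
  ring

theorem GeoOff_core (hN : NatStmt) (hR : RicStmt) (hW : WarpStmt) (hS : SphStmt) {n p q : ℕ}
    (S : Split n p q) {a b c : ℝ → ℝ} (hM : Met a b c) {e : OpenPartialHomeomorph (Sph n) (En n)}
    (he : e ∈ atlas (En n) (Sph n)) {y : En n} (hy : y ∈ e.target) {X : ℝ}
    (hXI : X ∈ Ioo (0 : ℝ) 1) {E1 E2 : Type} [NormedAddCommGroup E1] [InnerProductSpace ℝ E1]
    [FiniteDimensional ℝ E1] [NormedAddCommGroup E2] [InnerProductSpace ℝ E2]
    [FiniteDimensional ℝ E2] {j1 : E1 →L[ℝ] En (p + 1)} {m1 : En (p + 1)}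
    {j2 : E2 →L[ℝ] En (q + 1)} {m2 : En (q + 1)} (f1 : GeoOff_Fr j1 m1) (f2 : GeoOff_Fr j2 m2)
    (d1' : Module.finrank ℝ E1 = p) (d2' : Module.finrank ℝ E2 = q)
    (e1' : √X • m1 = S.π1 (par e y)) (e2' : √(1 - X) • m2 = S.π2 (par e y)) :
    (∀ v w, ric (gc (S.met a b c) e) y v w =
      S.form (e1 p q (gZ a b c) (gP a) (gR b) X * a X) (e2 p q (gZ a b c) (gP a) (gR b) X * b X)
        (e0 p q (gZ a b c) (gP a) (gR b) X * gA a b c X -
          e1 p q (gZ a b c) (gP a) (gR b) X * a X / (4 * X) -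
          e2 p q (gZ a b c) (gP a) (gR b) X * b X / (4 * (1 - X)))
        (par e y) (fderiv ℝ (par e) y v) (fderiv ℝ (par e) y w)) ∧
    scal (gc (S.met a b c) e) y = eR p q (gZ a b c) (gP a) (gR b) X := by
  obtain ⟨F, W, hW0, hF, hFW, hFy⟩ := hS.ext n e he
  set Sg := GeoOff_Sig S j1 m1 j2 m2 with hSg
  set y0 : ℝ × E1 × E2 := (X, 0, 0) with hy0
  have hS0 : Sg y0 = par e y := by
    have h1 : S.π1 (Sg y0 - par e y) = 0 := by
      rw [map_sub, hSg, GeoOff_pi1, hy0, GeoOff_s_zero, e1', sub_self]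
    have h2 : S.π2 (Sg y0 - par e y) = 0 := by
      rw [map_sub, hSg, GeoOff_pi2, hy0, GeoOff_s_zero, e2', sub_self]
    have h3 := S.inn (Sg y0 - par e y) (Sg y0 - par e y)
    rw [h1, h2, inner_zero_left, inner_zero_left, add_zero, inner_self_eq_zero] at h3
    exact sub_eq_zero.1 h3
  have hSs : ContDiffOn ℝ ∞ Sg (Ioo 0 1 ×ˢ univ) := GeoOff_Sig_smooth
  have hO : IsOpen (Ioo (0 : ℝ) 1 ×ˢ (univ : Set (E1 × E2))) :=
    isOpen_Ioo.prod isOpen_univ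
  set U' := (Ioo (0 : ℝ) 1 ×ˢ univ) ∩ Sg ⁻¹' W with hU'
  have hU : IsOpen U' := hSs.continuousOn.isOpen_inter_preimage hO hW0
  have hτ : ContDiffOn ℝ ∞ (F ∘ Sg) U' := hF.comp (hSs.mono inter_subset_left) fun _ h => h.2
  have hm : ∀ x ∈ U', (F ∘ Sg) x ∈ e.target ∧ par e ((F ∘ Sg) x) = Sg x := fun x hx =>
    hFW _ hx.2 (GeoOff_norm f1 f2 hx.1)
  have hd : ∀ x ∈ U', ∀ v, fderiv ℝ (par e) ((F ∘ Sg) x) (fderiv ℝ (F ∘ Sg) x v) =
      fderiv ℝ Sg x v := fun x hx v => by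
    have h1 := ((hS.smooth n e he).contDiffAt (e.open_target.mem_nhds (hm x hx).1)).differentiableAt
      (by simp)
    have h2 := (hτ.contDiffAt (hU.mem_nhds hx)).differentiableAt (by simp)
    have h3 : Sg =ᶠ[𝓝 x] par e ∘ (F ∘ Sg) := by
      filter_upwards [hU.mem_nhds hx] with x' hx' using (hm x' hx').2.symm
    rw [h3.fderiv_eq, fderiv_comp x h1 h2]
    rfl
  have hform : ∀ x ∈ U', ∀ (α β γ : ℝ) v w, S.form α β γ (par e ((F ∘ Sg) x))
      (fderiv ℝ (par e) ((F ∘ Sg) x) (fderiv ℝ (F ∘ Sg) x v))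
      (fderiv ℝ (par e) ((F ∘ Sg) x) (fderiv ℝ (F ∘ Sg) x w)) =
      (γ + α / (4 * x.1) + β / (4 * (1 - x.1))) * (v.1 * w.1) + x.1 * α * cf x.2.1 * ⟪v.2.1, w.2.1⟫ +
        (1 - x.1) * β * cf x.2.2 * ⟪v.2.2, w.2.2⟫ := fun x hx α β γ v w => by
    rw [hd x hx, hd x hx, (hm x hx).2]
    exact GeoOff_form f1 f2 hx.1 α β γ v w
  obtain ⟨sA, sP, sR⟩ := GeoOff_smA hM
  obtain ⟨hcm, hric⟩ := hW E1 E2 (gA a b c) (gP a) (gR b) (Ioo 0 1) isOpen_Ioo sA sP sR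
    fun r hr => ⟨hM.pA r hr, mul_pos hr.1 (hM.pa r (Ioo_subset_Icc_self hr)),
      mul_pos (sub_pos.2 hr.2) (hM.pb r (Ioo_subset_Icc_self hr))⟩
  have hiso : ∀ x ∈ U', ∀ v w, wG (gA a b c) (gP a) (gR b) x v w = gc (S.met a b c) e ((F ∘ Sg) x)
      (fderiv ℝ (F ∘ Sg) x v) (fderiv ℝ (F ∘ Sg) x w) := fun x hx v w => by
    rw [hS.gc_eq n p q S a b c e he _ (hm x hx).1, hform x hx, (hm x hx).2, GeoOff_X f1 hx.1,
      wG_apply]
    rfl
  have hy0U : y0 ∈ U' := ⟨⟨hXI, trivial⟩, by rw [mem_preimage, hS0]; exact (hFy y hy).1⟩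
  have hτ0 : (F ∘ Sg) y0 = y := by rw [Function.comp_apply, hS0, (hFy y hy).2]
  have hdim : Module.finrank ℝ (ℝ × E1 × E2) = Module.finrank ℝ (En n) := by
    rw [Module.finrank_prod, Module.finrank_prod, d1', d2', Module.finrank_self,
      finrank_euclideanSpace_fin, S.dim]
    ring
  have hG := hS.cm n p q S a b c hM e he
  obtain ⟨hbij, hnat⟩ := hN _ _ _ _ _ _ _ hdim hG (hcm.mono hU inter_subset_left) hτ
    (fun x hx => (hm x hx).1) hiso y0 hy0U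
  have hr : ∀ v w, ric (gc (S.met a b c) e) y (fderiv ℝ (F ∘ Sg) y0 v) (fderiv ℝ (F ∘ Sg) y0 w) =
      e0 p q (gZ a b c) (gP a) (gR b) X * (gA a b c X * (v.1 * w.1)) +
        e1 p q (gZ a b c) (gP a) (gR b) X * (gP a X * 4 * ⟪v.2.1, w.2.1⟫) +
        e2 p q (gZ a b c) (gP a) (gR b) X * (gR b X * 4 * ⟪v.2.2, w.2.2⟫) := fun v w => by
    rw [hR.eq n _ _ hG y hy, ← hτ0, ← hnat, hric X hXI, d1', d2']
    rfl
  have c1 : cf y0.2.1 = 4 := by simp [cf, hy0]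
  have c2 : cf y0.2.2 = 4 := by simp [cf, hy0]
  have c0 : y0.1 = X := rfl
  constructor
  · intro v w
    obtain ⟨v, rfl⟩ := hbij.2 v
    obtain ⟨w, rfl⟩ := hbij.2 w
    have := hform y0 hy0U
    rw [hτ0] at this
    rw [hr, this, c1, c2, c0]
    simp only [gP, gR]
    ring
  · set T := LinearEquiv.ofBijective (fderiv ℝ (F ∘ Sg) y0).toLinearMap hbij with hT
    have hTa : ∀ v, T v = fderiv ℝ (F ∘ Sg) y0 v := fun v => rfl
    obtain ⟨Dg, hDg, htr⟩ := GeoOff_diag E1 E2 (e0 p q (gZ a b c) (gP a) (gR b) X)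
      (e1 p q (gZ a b c) (gP a) (gR b) X) (e2 p q (gZ a b c) (gP a) (gR b) X)
    rw [hR.tr n _ _ hG y hy (T.conj Dg), LinearMap.trace_conj', htr, d1', d2', eR]
    · intro v w
      obtain ⟨v, rfl⟩ := T.surjective v
      obtain ⟨w, rfl⟩ := T.surjective w
      have h1 := hiso y0 hy0U (Dg v) w
      rw [hτ0] at h1
      rw [LinearEquiv.conj_apply_apply, T.symm_apply_apply, hTa, hTa, hTa, hr, ← h1, wG_apply, c1, c2,
        c0]
      simp only [hDg, real_inner_smul_left]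
      ring

theorem off (hN : NatStmt) (hR : RicStmt) (hW : WarpStmt) (hS : SphStmt) : OffStmt := by
  intro n p q S a b c hM e he y hy X hX hXI
  have hz : ‖par e y‖ = 1 := norm_eq_of_mem_sphere (e.symm y)
  have hη : ‖S.π2 (par e y)‖ ^ 2 = 1 - X := by
    have := S.inn (par e y) (par e y)
    simp only [real_inner_self_eq_norm_sq, hz] at this
    rw [← hX, Split.X]
    linarith
  obtain ⟨m1, e1', f1, d1'⟩ := GeoOff_frame p (S.π1 (par e y)) hXI.1 hX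
  obtain ⟨m2, e2', f2, d2'⟩ := GeoOff_frame q (S.π2 (par e y)) (sub_pos.2 hXI.2) hη
  exact GeoOff_core hN hR hW hS S hM he hy hXI f1 f2 d1' d2' e1' e2'

end Vale.Agent.P244.Geo
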