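import Vale.Agent.P244.GeoStm

/-! P244, geometry: removing the vector field by a change of gauge. -/

open Set Filter
open scoped ContDiff Topology

namespace Vale.Agent.P244.Geo

noncomputable def GeoPol_N (χ X : ℝ) : ℝ := 1 - X + Real.exp (2 * χ) * X

noncomputable def GeoPol_x (χ X : ℝ) : ℝ := Real.exp (2 * χ) * X / GeoPol_N χ X

noncomputable def GeoPol_k (χ X : ℝ) : ℝ := Real.exp (2 * χ) / GeoPol_N χ X ^ 2

theorem GeoPol_Npos (χ : ℝ) {X : ℝ} (hX : X ∈ I) : 0 < GeoPol_N χ X := by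
  have h := Real.exp_pos (2 * χ)
  unfold GeoPol_N
  rcases hX.2.lt_or_eq with h1 | h1
  · nlinarith [mul_nonneg h.le hX.1]
  · rw [h1]
    linarith

theorem GeoPol_kpos (χ : ℝ) {X : ℝ} (hX : X ∈ I) : 0 < GeoPol_k χ X :=
  div_pos (Real.exp_pos _) (pow_pos (GeoPol_Npos χ hX) 2)

theorem GeoPol_one_sub (χ : ℝ) {X : ℝ} (hX : X ∈ I) :
    1 - GeoPol_x χ X = (1 - X) / GeoPol_N χ X := by
  have h := (GeoPol_Npos χ hX).ne'
  rw [GeoPol_x]
  field_simp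
  rw [GeoPol_N]
  ring

theorem GeoPol_mem (χ : ℝ) {X : ℝ} (hX : X ∈ I) : GeoPol_x χ X ∈ I :=
  ⟨div_nonneg (mul_nonneg (Real.exp_pos _).le hX.1) (GeoPol_Npos χ hX).le, by
    have := div_nonneg (sub_nonneg.2 hX.2) (GeoPol_Npos χ hX).le
    linarith [GeoPol_one_sub χ hX]⟩

theorem GeoPol_memo (χ : ℝ) {X : ℝ} (hX : X ∈ Ioo (0 : ℝ) 1) : GeoPol_x χ X ∈ Ioo (0 : ℝ) 1 :=
  have hI := Ioo_subset_Icc_self hX
  ⟨div_pos (mul_pos (Real.exp_pos _) hX.1) (GeoPol_Npos χ hI), by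
    have := div_pos (sub_pos.2 hX.2) (GeoPol_Npos χ hI)
    linarith [GeoPol_one_sub χ hI]⟩

theorem GeoPol_om (χ : ℝ) {X : ℝ} (hX : X ∈ I) : om (GeoPol_x χ X) = GeoPol_k χ X * om X := by
  rw [om, GeoPol_one_sub χ hX, GeoPol_x, GeoPol_k, om]
  ring

/-- The derivative of `x(χ, X)` along a curve. -/
theorem GeoPol_dx {f g : ℝ → ℝ} {f' g' s : ℝ} {D : Set ℝ} (hf : HasDerivWithinAt f f' D s)
    (hg : HasDerivWithinAt g g' D s) (hX : g s ∈ I) :
    HasDerivWithinAt (fun r => GeoPol_x (f r) (g r))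
      (GeoPol_k (f s) (g s) * (g' + 2 * om (g s) * f')) D s := by
  have hE := ((hf.const_mul 2).exp).mul hg
  have hN := (GeoPol_Npos (f s) hX).ne'
  refine (hE.div ((hg.const_sub 1).add hE) hN).congr_deriv ?_
  simp only [Pi.mul_apply, Pi.add_apply, GeoPol_k, GeoPol_N, om] at hN ⊢
  field_simp
  ring

theorem GeoPol_sm {T : ℝ} {u : Fn} (h : JO T u) {t : ℝ} (ht : t ∈ Ico 0 T) : Sm (u t) :=
  ContDiffOn.comp (g := fun p : ℝ × ℝ => u p.1 p.2) (f := fun x : ℝ => (t, x)) h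
    (by fun_prop) (fun _ hx => ⟨ht, hx⟩)

theorem GeoPol_cda {T : ℝ} {u : Fn} (h : JO T u) {t x : ℝ} (ht : t ∈ Ico 0 T)
    (hx : x ∈ Ioo (0 : ℝ) 1) : ContDiffAt ℝ 2 (u t) x :=
  (ContDiffOn.contDiffAt (GeoPol_sm h ht) (I_nhds hx)).of_le
    (WithTop.coe_le_coe.2 (le_top : (2 : ℕ∞) ≤ ⊤))

theorem GeoPol_jdx {T : ℝ} {u : Fn} (h : JO T u) : JO T (dx u) :=
  JO.of_js fun _ hS => (h.js hS.2).dx hS.1

theorem GeoPol_comp {T : ℝ} {u φ : Fn} (h : JO T u) (hφ : JO T φ)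
    (hm : ∀ t ∈ Ico 0 T, ∀ X ∈ I, φ t X ∈ I) : JO T fun t X => u t (φ t X) :=
  ContDiffOn.comp (g := fun p : ℝ × ℝ => u p.1 p.2) (f := fun p : ℝ × ℝ => (p.1, φ p.1 p.2)) h
    (contDiffOn_fst.prodMk hφ) fun p hp => ⟨hp.1, hm p.1 hp.1 p.2 hp.2⟩

/-- The chain rule along a curve. -/
theorem GeoPol_chain {T : ℝ} {U : Fn} (h : JO T U) {γ : ℝ → ℝ} {γ' t Ut : ℝ} (ht : t ∈ Ico 0 T)
    (hγ : HasDerivWithinAt γ γ' (Ico 0 T) t) (hm : ∀ s ∈ Ico 0 T, γ s ∈ I)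
    (hx : γ t ∈ Ioo (0 : ℝ) 1) (hU : HasDerivWithinAt (fun s => U s (γ t)) Ut (Ico 0 T) t) :
    HasDerivWithinAt (fun s => U s (γ s)) (Ut + γ' * deriv (U t) (γ t)) (Ico 0 T) t := by
  have hF := ((ContDiffOn.differentiableOn h inf_ne_zero) (t, γ t)
    ⟨ht, hm t ht⟩).hasFDerivWithinAt
  generalize fderivWithin ℝ (fun p : ℝ × ℝ => U p.1 p.2) (Ico 0 T ×ˢ I) (t, γ t) = F at hF
  have h1 := HasFDerivWithinAt.comp_hasDerivWithinAt (f := fun s : ℝ => (s, γ s)) t hF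
    ((hasDerivWithinAt_id t _).prodMk hγ) fun s hs => ⟨hs, hm s hs⟩
  have h2 := HasFDerivWithinAt.comp_hasDerivWithinAt (f := fun s : ℝ => (s, γ t)) t hF
    ((hasDerivWithinAt_id t _).prodMk (hasDerivWithinAt_const t _ _)) fun s hs => ⟨hs, hm t ht⟩
  have h3 := HasFDerivWithinAt.comp_hasDerivWithinAt (f := fun y : ℝ => (t, y)) (γ t) hF
    ((hasDerivWithinAt_const _ I _).prodMk (hasDerivWithinAt_id _ _)) fun y hy => ⟨ht, hy⟩
  have e2 : F (1, 0) = Ut := (uniqueDiffOn_Ico 0 T t ht).eq_deriv _ h2 hU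
  have e3 : deriv (U t) (γ t) = F (0, 1) := (h3.hasDerivAt (I_nhds hx)).deriv
  refine HasDerivWithinAt.congr_deriv h1 ?_
  rw [← e2, e3, ← smul_eq_mul, ← map_smul, ← map_add]
  simp

/-- A solution of a linear equation keeps its sign. -/
theorem GeoPol_pos {T : ℝ} {f k : ℝ → ℝ} (hk : ContinuousOn k (Ico 0 T))
    (hf : ∀ t ∈ Ico 0 T, HasDerivWithinAt f (k t * f t) (Ico 0 T) t) (h0 : 0 < f 0) {t : ℝ}
    (ht : t ∈ Ico 0 T) : 0 < f t := by
  have hs : Icc 0 t ⊆ Ico 0 T := Icc_subset_Ico_right ht.2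
  obtain ⟨C, hC⟩ := isCompact_Icc.exists_bound_of_continuousOn (hk.mono hs)
  have hc : ContinuousOn f (Icc 0 t) := fun s h => (hf s (hs h)).continuousWithinAt.mono hs
  have hd : ∀ s ∈ Icc 0 t, HasDerivWithinAt (fun s => f s * f s * Real.exp (2 * C * s))
      (2 * (k s + C) * (f s * f s) * Real.exp (2 * C * s)) (Icc 0 t) s := fun s h => by
    have h1 := (hf s (hs h)).mono hs
    refine ((h1.mul h1).mul (((hasDerivWithinAt_id s _).const_mul (2 * C)).exp)).congr_deriv ?_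
    simp only [Pi.mul_apply, id]
    ring
  have hm := monotoneOn_of_hasDerivWithinAt_nonneg (convex_Icc 0 t)
    (fun s h => (hd s h).continuousWithinAt)
    (fun s h => (hd s (interior_subset h)).mono interior_subset) fun s h => by
      have := (abs_le.1 (hC s (interior_subset h))).1
      exact mul_nonneg (mul_nonneg (by linarith) (mul_self_nonneg _)) (Real.exp_pos _).le
  by_contra hn
  obtain ⟨s, h1, h2⟩ := intermediate_value_Icc' ht.1 hc ⟨not_lt.1 hn, h0.le⟩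
  have := hm (left_mem_Icc.2 ht.1) h1 h1.1
  simp only [h2, mul_zero, zero_mul, Real.exp_zero, mul_one] at this
  nlinarith

theorem GeoPol_alg {χ X w L u v : ℝ} (hX : X ∈ Ioo (0 : ℝ) 1)
    (hA : 1 - om (GeoPol_x χ X) * L ≠ 0) :
    GeoPol_k χ X * (w + om X * w ^ 2) / (1 - om (GeoPol_x χ X) * L) +
        GeoPol_k χ X ^ 2 * L / (4 * (1 - om (GeoPol_x χ X) * L)) -
        (Real.exp (2 * χ) ^ 2 * u + v + (Real.exp (2 * χ) - 1) ^ 2) / (4 * GeoPol_N χ X ^ 2) +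
        Real.exp (2 * χ) * (1 + GeoPol_x χ X * u) / GeoPol_N χ X / (4 * X) +
        (1 + (1 - GeoPol_x χ X) * v) / GeoPol_N χ X / (4 * (1 - X)) =
      (GeoPol_k χ X * (1 + 2 * om X * w)) ^ 2 /
        (4 * om (GeoPol_x χ X) * (1 - om (GeoPol_x χ X) * L)) := by
  have hI := Ioo_subset_Icc_self hX
  have hN := (GeoPol_Npos χ hI).ne'
  have hk := (GeoPol_kpos χ hI).ne'
  have ho := (om_pos hX).ne'
  have h0 := hX.1.ne'
  have h1 := (sub_pos.2 hX.2).ne'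
  have e : Real.exp (2 * χ) * (1 + GeoPol_x χ X * u) / GeoPol_N χ X / (4 * X) +
      (1 + (1 - GeoPol_x χ X) * v) / GeoPol_N χ X / (4 * (1 - X)) -
      (Real.exp (2 * χ) ^ 2 * u + v + (Real.exp (2 * χ) - 1) ^ 2) / (4 * GeoPol_N χ X ^ 2) =
      GeoPol_k χ X / (4 * om X) := by
    rw [GeoPol_one_sub χ hI, GeoPol_x, GeoPol_k, om]
    field_simp
    rw [GeoPol_N]
    ring
  rw [GeoPol_om χ hI] at hA ⊢
  have e' : (GeoPol_k χ X * (1 + 2 * om X * w)) ^ 2 /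
      (4 * (GeoPol_k χ X * om X) * (1 - GeoPol_k χ X * om X * L)) =
      GeoPol_k χ X * (w + om X * w ^ 2) / (1 - GeoPol_k χ X * om X * L) +
        GeoPol_k χ X ^ 2 * L / (4 * (1 - GeoPol_k χ X * om X * L)) +
        GeoPol_k χ X / (4 * om X) := by
    field_simp
    ring
  linear_combination e - e'

theorem pol (hP : ParStmt) (hR : RepStmt) : PolStmt := by
  intro p q T L u v j h
  have hxs : ContDiffOn ℝ ∞ (fun z : ℝ × ℝ => GeoPol_x z.1 z.2) (univ ×ˢ I) := by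
    refine ContDiffOn.div ?_ ?_ fun z hz => (GeoPol_Npos _ hz.2).ne'
    · fun_prop
    · unfold GeoPol_N
      fun_prop
  obtain ⟨χ, hχ, h0, hd⟩ := hP T (fun z => j z.1 (GeoPol_x z.2.1 z.2.2) / 2) h.pos
    ((ContDiffOn.comp (g := fun p : ℝ × ℝ => j p.1 p.2)
      (f := fun z : ℝ × ℝ × ℝ => (z.1, GeoPol_x z.2.1 z.2.2)) h.sj
      (contDiffOn_fst.prodMk (hxs.comp contDiffOn_snd fun z hz => hz.2))
      fun z hz => ⟨hz.1, GeoPol_mem _ hz.2.2⟩).div_const 2) (fun S hS => by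
      obtain ⟨C, hC⟩ := (h.sj.js hS).bdd
      refine ⟨C / 2, fun t ht χ X hX => ?_⟩
      rw [abs_div, abs_two]
      linarith [hC t ht _ (GeoPol_mem χ hX)])
  obtain ⟨φ, hφd⟩ : ∃ φ : Fn, φ = fun t X => GeoPol_x (χ t X) X := ⟨_, rfl⟩
  have eφ : ∀ t X, φ t X = GeoPol_x (χ t X) X := fun t X => by rw [hφd]
  have hφ : JO T φ := by
    rw [hφd]
    exact hxs.comp (f := fun z : ℝ × ℝ => (χ z.1 z.2, z.2)) (ContDiffOn.prodMk hχ contDiffOn_snd)
      fun z hz => ⟨mem_univ _, hz.2⟩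
  have hm : ∀ t, ∀ X ∈ I, φ t X ∈ I := fun t X hX => eφ t X ▸ GeoPol_mem _ hX
  have hmo : ∀ t, ∀ X ∈ Ioo (0 : ℝ) 1, φ t X ∈ Ioo (0 : ℝ) 1 := fun t X hX =>
    eφ t X ▸ GeoPol_memo _ hX
  have hφt : ∀ t ∈ Ico 0 T, ∀ X ∈ I,
      HasDerivWithinAt (fun s => φ s X) (fJ j t (φ t X)) (Ico 0 T) t := fun t ht X hX => by
    simp only [eφ]
    refine (GeoPol_dx (hd t ht X hX) (hasDerivWithinAt_const t _ X) hX).congr_deriv ?_
    rw [fJ, GeoPol_om _ hX]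
    ring
  have hφx : ∀ t ∈ Ico 0 T, ∀ X ∈ I,
      dx φ t X = GeoPol_k (χ t X) X * (1 + 2 * om X * dx χ t X) := fun t ht X hX => by
    rw [hφd]
    exact d1_eq hX (GeoPol_dx ((GeoPol_sm hχ ht).hasW hX) (hasDerivWithinAt_id X _) hX)
  have hom : ContDiffOn ℝ ∞ (fun z : ℝ × ℝ => om z.2) (Ico 0 T ×ˢ I) :=
    (contDiff_om.comp contDiff_snd).contDiffOn
  have hJ : JO T (fJ j) := hom.mul h.sj
  have hZ : JO T (fZ L) := (contDiffOn_const.mul hom).mul (contDiffOn_const.sub (hom.mul h.sL))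
  have hPf : JO T (fP u) := contDiffOn_snd.add ((contDiffOn_snd.pow 2).mul h.su)
  have hRf : JO T (fR v) := (contDiffOn_const.sub contDiffOn_snd).add
    (((contDiffOn_const.sub contDiffOn_snd).pow 2).mul h.sv)
  have hpt : ∀ t ∈ Ico 0 T, ∀ X ∈ I, HasDerivWithinAt (fun s => dx φ s X)
      (dx (fJ j) t (φ t X) * dx φ t X) (Ico 0 T) t := fun t ht X hX => by
    obtain ⟨S, h1, h2⟩ := exists_between ht.2
    have hS := ht.1.trans_lt h1
    have ht' : t ∈ Icc 0 S := ⟨ht.1, h1.le⟩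
    refine ((GeoPol_jdx hφ).hasT h2 ht.1 h1 hX).congr_deriv ?_
    rw [(hφ.js h2).dt_dx hS ht' hX]
    refine (d1_congr (h := fun Y => fJ j t (φ t Y)) (fun Y hY => dt_eq hS ht'
      ((hφt t ht Y hY).mono (Icc_subset_Ico_right h2))) hX).trans (d1_eq hX ?_)
    exact HasDerivWithinAt.comp X ((GeoPol_sm hJ ht).hasW (hm t X hX)) ((GeoPol_sm hφ ht).hasW hX)
      (hm t)
  have hpp : ∀ t ∈ Ico 0 T, ∀ X ∈ I, 0 < dx φ t X := fun t ht X hX => by
    have h00 : (0 : ℝ) ∈ Ico 0 T := ⟨le_rfl, h.pos⟩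
    refine GeoPol_pos (k := fun s => dx (fJ j) s (φ s X)) ?_ (fun s hs => hpt s hs X hX) ?_ ht
    · exact (ContDiffOn.continuousOn (GeoPol_comp (GeoPol_jdx hJ) hφ fun s _ => hm s)).comp
        (f := fun s : ℝ => (s, X)) (by fun_prop) fun s hs => ⟨hs, hX⟩
    · have : dx χ 0 X = 0 :=
        (d1_congr (h := fun _ => 0) h0 hX).trans (d1_eq hX (hasDerivWithinAt_const X _ 0))
      rw [hφx 0 h00 X hX, this, mul_zero, add_zero, mul_one]
      exact GeoPol_kpos _ hX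
  have hE : ContDiffOn ℝ ∞ (fun z : ℝ × ℝ => Real.exp (2 * χ z.1 z.2)) (Ico 0 T ×ˢ I) :=
    (contDiffOn_const.mul hχ).exp
  have hN : ContDiffOn ℝ ∞ (fun z : ℝ × ℝ => GeoPol_N (χ z.1 z.2) z.2) (Ico 0 T ×ˢ I) :=
    (contDiffOn_const.sub contDiffOn_snd).add (hE.mul contDiffOn_snd)
  have hN0 : ∀ z ∈ Ico 0 T ×ˢ I, GeoPol_N (χ z.1 z.2) z.2 ≠ 0 := fun z hz =>
    (GeoPol_Npos _ hz.2).ne'
  have hk : ContDiffOn ℝ ∞ (fun z : ℝ × ℝ => GeoPol_k (χ z.1 z.2) z.2) (Ico 0 T ×ˢ I) :=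
    hE.div (hN.pow 2) fun z hz => pow_ne_zero 2 (hN0 z hz)
  have hL' := GeoPol_comp h.sL hφ fun s _ => hm s
  have hu' := GeoPol_comp h.su hφ fun s _ => hm s
  have hv' := GeoPol_comp h.sv hφ fun s _ => hm s
  have hA : ContDiffOn ℝ ∞ (fun z : ℝ × ℝ => 1 - om (φ z.1 z.2) * L z.1 (φ z.1 z.2))
      (Ico 0 T ×ˢ I) := contDiffOn_const.sub ((contDiff_om.comp_contDiffOn hφ).mul hL')
  have hA0 : ∀ z ∈ Ico 0 T ×ˢ I, 1 - om (φ z.1 z.2) * L z.1 (φ z.1 z.2) ≠ 0 := fun z hz =>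
    (h.posL _ hz.1 _ (hm _ _ hz.2)).ne'
  have hw := GeoPol_jdx hχ
  obtain ⟨a, had⟩ : ∃ a : Fn, a = fun t X =>
    Real.exp (2 * χ t X) * (1 + φ t X * u t (φ t X)) / GeoPol_N (χ t X) X := ⟨_, rfl⟩
  obtain ⟨b, hbd⟩ : ∃ b : Fn, b = fun t X =>
    (1 + (1 - φ t X) * v t (φ t X)) / GeoPol_N (χ t X) X := ⟨_, rfl⟩
  obtain ⟨c, hcd⟩ : ∃ c : Fn, c = fun t X =>
    GeoPol_k (χ t X) X * (dx χ t X + om X * dx χ t X ^ 2) / (1 - om (φ t X) * L t (φ t X)) +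
      GeoPol_k (χ t X) X ^ 2 * L t (φ t X) / (4 * (1 - om (φ t X) * L t (φ t X))) -
      (Real.exp (2 * χ t X) ^ 2 * u t (φ t X) + v t (φ t X) + (Real.exp (2 * χ t X) - 1) ^ 2) /
        (4 * GeoPol_N (χ t X) X ^ 2) := ⟨_, rfl⟩
  have ha : JO T a := by
    rw [had]
    exact (hE.mul (contDiffOn_const.add (ContDiffOn.mul hφ hu'))).div hN hN0
  have hb : JO T b := by
    rw [hbd]
    exact (contDiffOn_const.add ((contDiffOn_const.sub hφ).mul hv')).div hN hN0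
  have hc : JO T c := by
    rw [hcd]
    exact (((hk.mul (ContDiffOn.add hw (hom.mul (ContDiffOn.pow hw 2)))).div hA hA0).add
      (((hk.pow 2).mul hL').div (contDiffOn_const.mul hA) fun z hz =>
        mul_ne_zero four_ne_zero (hA0 z hz))).sub
      (((((hE.pow 2).mul hu').add hv').add ((hE.sub contDiffOn_const).pow 2)).div
        (contDiffOn_const.mul (hN.pow 2)) fun z hz =>
          mul_ne_zero four_ne_zero (pow_ne_zero 2 (hN0 z hz)))
  have eA : ∀ t ∈ Ico 0 T, ∀ X ∈ Ioo (0 : ℝ) 1,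
      gA (a t) (b t) (c t) X = dx φ t X ^ 2 / fZ L t (φ t X) := fun t ht X hX => by
    have hI := Ioo_subset_Icc_self hX
    have := hA0 (t, X) ⟨ht, hI⟩
    rw [hφx t ht X hI, gA, fZ, had, hbd, hcd]
    simp only [eφ] at this ⊢
    exact GeoPol_alg hX this
  have eP : ∀ t X, gP (a t) X = fP u t (φ t X) := fun t X => by
    rw [gP, fP, had]
    simp only [eφ]
    generalize u t (GeoPol_x (χ t X) X) = y
    rw [GeoPol_x]
    ring
  have eR' : ∀ t, ∀ X ∈ I, gR (b t) X = fR v t (φ t X) := fun t X hX => by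
    rw [gR, fR, hbd]
    simp only [eφ, GeoPol_one_sub _ hX]
    ring
  have hZ0 : ∀ t ∈ Ico 0 T, ∀ X ∈ Ioo (0 : ℝ) 1, 0 < fZ L t (φ t X) := fun t ht X hX =>
    mul_pos (mul_pos four_pos (om_pos (hmo t X hX)))
      (h.posL t ht _ (Ioo_subset_Icc_self (hmo t X hX)))
  have key : ∀ t ∈ Ico 0 T, ∀ X ∈ Ioo (0 : ℝ) 1, _ := fun t ht X hX =>
    hR p q (fZ L t) (fP u t) (fR v t) (gZ (a t) (b t) (c t)) (gP (a t)) (gR (b t)) (φ t) X
      (GeoPol_cda hφ ht hX)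
      (by
        rw [((GeoPol_sm hφ ht).has hX).deriv]
        exact hpp t ht X (Ioo_subset_Icc_self hX))
      (GeoPol_cda hZ ht (hmo t X hX)) (GeoPol_cda hPf ht (hmo t X hX))
      (GeoPol_cda hRf ht (hmo t X hX))
      (by
        have := mul_pos (hmo t X hX).1 (h.posu t ht _ (Ioo_subset_Icc_self (hmo t X hX)))
        unfold fP
        linarith)
      (by
        have := mul_pos (sub_pos.2 (hmo t X hX).2)
          (h.posv t ht _ (Ioo_subset_Icc_self (hmo t X hX)))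
        unfold fR
        linarith)
      (by
        filter_upwards [Ioo_mem_nhds hX.1 hX.2] with Y hY
        refine ⟨?_, eP t Y, eR' t Y (Ioo_subset_Icc_self hY)⟩
        rw [gZ, eA t ht Y hY, inv_div, ((GeoPol_sm hφ ht).has hY).deriv]
        rfl)
  refine ⟨a, b, c, h.pos, ha, hb, hc, fun t ht => ⟨GeoPol_sm ha ht, GeoPol_sm hb ht,
    GeoPol_sm hc ht, fun X hX => ?_, fun X hX => ?_, fun X hX => ?_⟩, fun t ht X hX => ?_,
    fun t ht X hX => ?_, fun t ht X hX => ?_, ?_, fun ε hε => ?_⟩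
  · rw [had]
    exact div_pos (mul_pos (Real.exp_pos _) (h.posu t ht _ (hm t X hX))) (GeoPol_Npos _ hX)
  · rw [hbd]
    exact div_pos (h.posv t ht _ (hm t X hX)) (GeoPol_Npos _ hX)
  · rw [eA t ht X hX]
    exact div_pos (pow_pos (hpp t ht X (Ioo_subset_Icc_self hX)) 2) (hZ0 t ht X hX)
  · have hI := Ioo_subset_Icc_self hX
    have h1 := GeoPol_chain hZ ht (hφt t ht X hI) (fun s _ => hm s X hI) (hmo t X hX)
      (h.eqZ t ht _ (hmo t X hX))
    have h2 := (hZ0 t ht X hX).ne'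
    refine ((((hpt t ht X hI).pow 2).div h1 h2).congr (fun s hs => eA s hs X hX)
      (eA t ht X hX)).congr_deriv ?_
    rw [(key t ht X hX).1, eA t ht X hX, ((GeoPol_sm hJ ht).has (hmo t X hX)).deriv]
    simp only [Pi.pow_apply, dx]
    field_simp
    ring
  · have hI := Ioo_subset_Icc_self hX
    have h2 := hX.1.ne'
    have e : ∀ s, a s X = fP u s (φ s X) / X := fun s => by
      rw [← eP, gP]
      field_simp
    simp only [e]
    refine ((GeoPol_chain hPf ht (hφt t ht X hI) (fun s _ => hm s X hI) (hmo t X hX)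
      (h.eqP t ht _ (hmo t X hX))).div_const X).congr_deriv ?_
    rw [(key t ht X hX).2.1]
    ring
  · have hI := Ioo_subset_Icc_self hX
    have h2 := (sub_pos.2 hX.2).ne'
    have e : ∀ s, b s X = fR v s (φ s X) / (1 - X) := fun s => by
      rw [← eR' s X hI, gR]
      field_simp
    simp only [e]
    refine ((GeoPol_chain hRf ht (hφt t ht X hI) (fun s _ => hm s X hI) (hmo t X hX)
      (h.eqR t ht _ (hmo t X hX))).div_const (1 - X)).congr_deriv ?_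
    rw [(key t ht X hX).2.2]
    ring
  · obtain ⟨C, hC⟩ := h.bdd
    refine ⟨C, fun t ht X hX => ?_⟩
    rw [eR, (key t ht X hX).1, (key t ht X hX).2.1, (key t ht X hX).2.2]
    exact hC t ht _ (hmo t X hX)
  · obtain ⟨t, ht, h1⟩ := h.deg ε hε
    refine ⟨t, ht, ?_⟩
    have e := eR' t 0 (left_mem_Icc.2 zero_le_one)
    rw [gR, eφ, GeoPol_x, mul_zero, zero_div, sub_zero, one_mul] at e
    rwa [e]

end Vale.Agent.P244.Geo
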