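import Vale.Agent.P244.GeoStm

/-! P244, geometry: change of variable in the eigenvalues. -/

open Set Filter
open scoped ContDiff Topology

namespace Vale.Agent.P244.Geo

theorem GeoRep_ev {f : ℝ → ℝ} {x : ℝ} (h : ContDiffAt ℝ 2 f x) :
    ∀ᶠ y in 𝓝 x, DifferentiableAt ℝ f y :=
  (h.eventually (by simp)).mono fun _ hy => hy.differentiableAt (by simp)

theorem GeoRep_d2 {f : ℝ → ℝ} {x : ℝ} (h : ContDiffAt ℝ 2 f x) :
    DifferentiableAt ℝ (deriv f) x := by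
  have h1 : ContDiffAt ℝ 1 (fderiv ℝ f) x := h.fderiv_right (by norm_num)
  exact (h1.differentiableAt (by simp)).clm_apply (differentiableAt_const _)

theorem GeoRep_comp {P P' φ : ℝ → ℝ} {X : ℝ} (hφ : ContDiffAt ℝ 2 φ X)
    (hP : ContDiffAt ℝ 2 P (φ X)) (h : ∀ᶠ Y in 𝓝 X, P' Y = P (φ Y)) :
    P' X = P (φ X) ∧ deriv P' X = deriv P (φ X) * deriv φ X ∧
      deriv (deriv P') X = deriv (deriv P) (φ X) * deriv φ X * deriv φ X +
        deriv P (φ X) * deriv (deriv φ) X := by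
  have e : deriv P' =ᶠ[𝓝 X] fun Y => deriv P (φ Y) * deriv φ Y := by
    filter_upwards [h.eventually_nhds, GeoRep_ev hφ,
      hφ.continuousAt.eventually (GeoRep_ev hP)] with Y h1 h2 h3
    rw [EventuallyEq.deriv_eq h1]
    exact (h3.hasDerivAt.comp Y h2.hasDerivAt).deriv
  refine ⟨h.self_of_nhds, e.eq_of_nhds, ?_⟩
  rw [e.deriv_eq]
  exact (((GeoRep_d2 hP).hasDerivAt.comp X (GeoRep_ev hφ).self_of_nhds.hasDerivAt).mul
    (GeoRep_d2 hφ).hasDerivAt).deriv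

theorem GeoRep_Z {Z Z' φ : ℝ → ℝ} {X : ℝ} (hφ : ContDiffAt ℝ 2 φ X) (h0 : 0 < deriv φ X)
    (hZ : ContDiffAt ℝ 2 Z (φ X)) (h : ∀ᶠ Y in 𝓝 X, Z' Y = Z (φ Y) / deriv φ Y ^ 2) :
    deriv Z' X = deriv Z (φ X) / deriv φ X - 2 * Z (φ X) * deriv (deriv φ) X / deriv φ X ^ 3 := by
  rw [EventuallyEq.deriv_eq h]
  have := (((GeoRep_ev hZ).self_of_nhds.hasDerivAt.comp X
    (GeoRep_ev hφ).self_of_nhds.hasDerivAt).div ((GeoRep_d2 hφ).hasDerivAt.pow 2)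
      (pow_ne_zero 2 h0.ne')).deriv
  refine Eq.trans this ?_
  simp only [Function.comp_apply, Pi.pow_apply]
  field_simp
  ring

theorem rep : RepStmt := by
  intro p q Z P R Z' P' R' φ X hφ h0 hZ hP hR hP0 hR0 h
  have hz := GeoRep_Z hφ h0 hZ (h.mono fun _ h => h.1)
  have hz0 := h.self_of_nhds.1
  have hk : ∀ Q Q' : ℝ → ℝ, ContDiffAt ℝ 2 Q (φ X) → 0 < Q (φ X) →
      (∀ᶠ Y in 𝓝 X, Q' Y = Q (φ Y)) →
      kG Z' Q' X = kG Z Q (φ X) ∧ lG Z' Q' X = lG Z Q (φ X) := by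
    intro Q Q' hQ hQ0 hQ'
    obtain ⟨a, b, c⟩ := GeoRep_comp hφ hQ hQ'
    constructor
    · rw [kG, kG, kk, kk, c, b, a, hz, hz0]
      field_simp
      ring
    · rw [lG, lG, ll, ll, b, a, hz0]
      field_simp
  obtain ⟨k1, l1⟩ := hk P P' hP hP0 (h.mono fun _ h => h.2.1)
  obtain ⟨k2, l2⟩ := hk R R' hR hR0 (h.mono fun _ h => h.2.2)
  have hm : mG Z' P' R' X = mG Z P R (φ X) := by
    obtain ⟨a, b, -⟩ := GeoRep_comp hφ hP (h.mono fun _ h => h.2.1)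
    obtain ⟨a', b', -⟩ := GeoRep_comp hφ hR (h.mono fun _ h => h.2.2)
    rw [mG, mG, mx, mx, b, a, b', a', hz0]
    field_simp
  simp only [e0, e1, e2, k1, l1, k2, l2, hm, and_self]

end Vale.Agent.P244.Geo
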