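import Vale.Agent.P244.GeoStm

/-! `ric` and `scal` on the model space. -/

open Set Filter
open scoped Manifold ContDiff Topology RealInnerProductSpace

set_option maxSynthPendingDepth 3

namespace Vale.Agent.P244.Geo

open Vale.Agent.P255 (CM chrL)

variable {n : ℕ} {G : En n → En n →L[ℝ] En n →L[ℝ] ℝ} {U : Set (En n)}

theorem GeoRic_trace (S : En n →ₗ[ℝ] En n) :
    LinearMap.trace ℝ (En n) S = ∑ i, S (EuclideanSpace.single i 1) i := by
  rw [LinearMap.trace_eq_sum_inner _ (EuclideanSpace.basisFun (Fin n) ℝ)]
  refine Finset.sum_congr rfl fun i _ => ?_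
  rw [EuclideanSpace.basisFun_apply, EuclideanSpace.inner_single_left]
  simp

theorem GeoRic_riem (h : CM G U) {y : En n} (hy : y ∈ U) (u v w : En n) :
    riem G y u v w = riemL G y v w u := by
  refine (h.riem_eq hy u v w).trans ?_
  simp only [riemL, sub_apply, add_apply, ContinuousLinearMap.flip_apply,
    ContinuousLinearMap.comp_apply]

theorem GeoRic_cont (h : CM G U) (v w : En n) : ContinuousOn (fun y => ric G y v w) U := by
  have c1 := h.contDiffOn_chrL.continuousOn
  have c2 := (h.contDiffOn_chrL.fderiv_of_isOpen (m := ∞) h.isOpen (by simp)).continuousOn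
  have c3 : ∀ a b c : En n, ContinuousOn (fun y => fderiv ℝ (chrL G) y a b c) U := fun a b c =>
    ((c2.clm_apply continuousOn_const).clm_apply continuousOn_const).clm_apply continuousOn_const
  have c4 : ∀ a b c : En n, ContinuousOn (fun y => chrL G y a (chrL G y b c)) U := fun a b c =>
    (c1.clm_apply continuousOn_const).clm_apply
      ((c1.clm_apply continuousOn_const).clm_apply continuousOn_const)
  refine continuousOn_finsetSum _ fun i _ => ?_
  refine (EuclideanSpace.proj i : En n →L[ℝ] ℝ).continuous.comp_continuousOn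
    (f := fun y => riem G y (EuclideanSpace.single i 1) v w) ?_
  exact ((((c3 _ v w).sub (c3 v _ w)).add (c4 _ v w)).sub (c4 v _ w)).congr
    fun y hy => h.riem_eq hy _ v w

/-- The Gram matrix. -/
noncomputable def GeoRic_gram (B : En n →L[ℝ] En n →L[ℝ] ℝ) : Matrix (Fin n) (Fin n) ℝ :=
  Matrix.of fun a b => B (EuclideanSpace.single a 1) (EuclideanSpace.single b 1)

theorem GeoRic_exp (v : En n) : v = ∑ k, v k • EuclideanSpace.single k (1 : ℝ) := by
  conv_lhs => rw [← (EuclideanSpace.basisFun (Fin n) ℝ).sum_repr v]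
  simp

theorem GeoRic_left (B : En n →L[ℝ] En n →L[ℝ] ℝ) (v w : En n) :
    B v w = ∑ k, v k * B (EuclideanSpace.single k 1) w := by
  conv_lhs => rw [GeoRic_exp v]
  simp [map_sum, sum_apply]

theorem GeoRic_det (h : CM G U) {y : En n} (hy : y ∈ U) : (GeoRic_gram (G y)).det ≠ 0 := by
  intro h0
  obtain ⟨v, hv, hz⟩ := Matrix.exists_vecMul_eq_zero_iff.2 h0
  have h1 : (WithLp.toLp 2 v : En n) ≠ 0 := fun e => hv (congrArg WithLp.ofLp e)
  have h2 := h.pos y hy _ h1
  have h3 : ∀ k, G y (WithLp.toLp 2 v) (EuclideanSpace.single k 1) = 0 := fun k => by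
    rw [GeoRic_left]
    exact congrFun hz k
  rw [GeoRic_left] at h2
  simp only [h.symm y hy (EuclideanSpace.single _ 1), h3, mul_zero, Finset.sum_const_zero] at h2
  exact lt_irrefl _ h2

theorem ricS : RicStmt := by
  refine ⟨fun n G U h y hy v w => ?_, fun n G U h => GeoRic_cont h, fun n G U h => ?_,
    fun n G U h y hy S hS => ?_⟩
  · unfold ricT ric
    rw [GeoRic_trace]
    exact Finset.sum_congr rfl fun i _ => by rw [GeoRic_riem h hy]; rfl
  · have c0 : ContinuousOn (fun y => GeoRic_gram (G y)) U :=
      continuousOn_pi.2 fun a => continuousOn_pi.2 fun b =>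
        (h.smooth.continuousOn.clm_apply continuousOn_const).clm_apply continuousOn_const
    have c1 : ContinuousOn (fun y => (GeoRic_gram (G y))⁻¹) U := by
      have : ContinuousOn (fun y => ((GeoRic_gram (G y)).det)⁻¹ • (GeoRic_gram (G y)).adjugate) U :=
        ((continuous_id.matrix_det.comp_continuousOn c0).inv₀ fun y hy => GeoRic_det h hy).smul
          (continuous_id.matrix_adjugate.comp_continuousOn c0)
      exact this.congr fun y _ => by simp only [Matrix.inv_def, Ring.inverse_eq_inv']
    refine continuousOn_finsetSum _ fun i _ => continuousOn_finsetSum _ fun j _ => ?_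
    exact (continuousOn_pi.1 (continuousOn_pi.1 c1 i) j).mul (GeoRic_cont h _ _)
  · have h1 := Matrix.mul_nonsing_inv (GeoRic_gram (G y)) (isUnit_iff_ne_zero.2 (GeoRic_det h hy))
    have hs : (GeoRic_gram (G y)).transpose = GeoRic_gram (G y) := by
      ext a b; exact h.symm y hy _ _
    have h2 : ∀ i j, (GeoRic_gram (G y))⁻¹ i j = (GeoRic_gram (G y))⁻¹ j i := fun i j => by
      have := Matrix.transpose_nonsing_inv (GeoRic_gram (G y))
      rw [hs] at this
      exact (congrFun (congrFun this j) i)
    rw [GeoRic_trace]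
    refine Finset.sum_congr rfl fun i _ => ?_
    have h3 : ∀ k, ∑ j, GeoRic_gram (G y) k j * (GeoRic_gram (G y))⁻¹ j i =
        if k = i then 1 else 0 := fun k => by
      rw [← Matrix.mul_apply, h1, Matrix.one_apply]
    calc _ = ∑ j, ∑ k, S (EuclideanSpace.single i 1) k *
          (GeoRic_gram (G y) k j * (GeoRic_gram (G y))⁻¹ j i) := by
          refine Finset.sum_congr rfl fun j _ => ?_
          rw [hS, GeoRic_left, Finset.mul_sum]
          refine Finset.sum_congr rfl fun k _ => ?_
          rw [← h2 i j]
          simp only [GeoRic_gram, Matrix.of_apply]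
          ring
      _ = _ := by
          rw [Finset.sum_comm]
          simp only [← Finset.mul_sum, h3]
          simp

end Vale.Agent.P244.Geo
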