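import Vale.Agent.P244.GeoStm

/-! The sphere and its charts. -/

open Set Filter
open scoped Manifold ContDiff Topology RealInnerProductSpace

set_option maxSynthPendingDepth 3

namespace Vale.Agent.P244.Geo

open Vale.Agent.P255 (CM chrL)

theorem GeoSph_fact (n : ℕ) : Fact (Module.finrank ℝ (En (n + 1)) = n + 1) :=
  ⟨finrank_euclideanSpace_fin⟩

attribute [local instance] GeoSph_fact

theorem GeoSph_split (p q : ℕ) : Nonempty (Split (p + q + 1) p q) := by
  have hd : Module.finrank ℝ (En (p + q + 1 + 1)) =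
      Module.finrank ℝ (WithLp 2 (En (p + 1) × En (q + 1))) := by
    rw [(WithLp.linearEquiv 2 ℝ (En (p + 1) × En (q + 1))).finrank_eq, Module.finrank_prod]
    simp only [finrank_euclideanSpace_fin]
    ring
  let L : En (p + q + 1 + 1) ≃ₗᵢ[ℝ] WithLp 2 (En (p + 1) × En (q + 1)) :=
    (stdOrthonormalBasis ℝ _).equiv (stdOrthonormalBasis ℝ _) (finCongr hd)
  let K := L.toContinuousLinearEquiv.trans (WithLp.prodContinuousLinearEquiv 2 ℝ _ _)
  refine ⟨⟨(ContinuousLinearMap.fst ℝ _ _).comp K.toContinuousLinearMap,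
    (ContinuousLinearMap.snd ℝ _ _).comp K.toContinuousLinearMap,
    K.symm.toContinuousLinearMap.comp (ContinuousLinearMap.inl ℝ _ _),
    K.symm.toContinuousLinearMap.comp (ContinuousLinearMap.inr ℝ _ _), rfl, fun v w => ?_, fun v => ?_,
    fun v => ?_, fun v => ?_, fun v => ?_⟩⟩
  · rw [← L.inner_map_map, WithLp.prod_inner_apply]
    rfl
  all_goals simp

variable {n p q : ℕ}

theorem GeoSph_norm (S : Split n p q) (z : En (n + 1)) :
    ‖z‖ ^ 2 = ‖S.π1 z‖ ^ 2 + ‖S.π2 z‖ ^ 2 := by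
  simpa only [real_inner_self_eq_norm_sq] using S.inn z z

theorem GeoSph_mem (S : Split n p q) (m : Sph n) : S.X m ∈ I := by
  have := GeoSph_norm S m
  rw [norm_eq_of_mem_sphere m] at this
  exact ⟨sq_nonneg _, by unfold Split.X; nlinarith [sq_nonneg ‖S.π2 m‖]⟩

variable {e : OpenPartialHomeomorph (Sph n) (En n)}

theorem GeoSph_smooth (he : e ∈ atlas (En n) (Sph n)) : ContDiffOn ℝ ∞ (par e) e.target :=
  contMDiffOn_iff_contDiffOn.1 ((contMDiff_coe_sphere (n := n) (m := ∞)).comp_contMDiffOn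
    (contMDiffOn_symm_of_mem_maximalAtlas (IsManifold.subset_maximalAtlas he)))

theorem GeoSph_fd (he : e ∈ atlas (En n) (Sph n)) {y : En n} (hy : y ∈ e.target) (v : En n) :
    fderiv ℝ (par e) y v = dι (e.symm y) (P255.dS e y v) := by
  have h1 := ((contMDiff_coe_sphere (n := n) (m := ∞)) (e.symm y)).mdifferentiableAt (by simp)
  have h2 := (P255.chart_symm_contMDiffAt he hy).mdifferentiableAt (by simp)
  have h3 := mfderiv_comp y h1 h2
  rw [mfderiv_eq_fderiv] at h3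
  exact congrArg (fun T => T v) h3

theorem GeoSph_inj (m : Sph n) : Function.Injective (dι m) := by
  have := injective_mvfderiv_subtypeVal_sphere (n := n) m
  exact this

theorem GeoSph_range (m : Sph n) (V : En (n + 1)) : ⟪(m : En (n + 1)), V⟫ = 0 ↔ ∃ v, dι m v = V := by
  have := range_mvfderiv_subtypeVal (n := n) m
  rw [← Submodule.mem_orthogonal_singleton_iff_inner_right, ← this]
  rfl

theorem GeoSph_pos (S : Split n p q) {a b c : ℝ → ℝ} (h : Met a b c) (m : Sph n) {V : En (n + 1)}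
    (hV : V ≠ 0) (ht : ⟪(m : En (n + 1)), V⟫ = 0) :
    0 < S.form (a (S.X m)) (b (S.X m)) (c (S.X m)) m V V := by
  have hX := GeoSph_mem S m
  have ha := h.pa _ hX
  have hb := h.pb _ hX
  have h1 := GeoSph_norm S m
  rw [norm_eq_of_mem_sphere m] at h1
  have h2 := GeoSph_norm S V
  have h3 : 0 < ‖V‖ ^ 2 := pow_pos (norm_pos_iff.2 hV) 2
  rw [S.inn] at ht
  have c1 := abs_real_inner_le_norm (S.π1 m) (S.π1 V)
  have c2 := abs_real_inner_le_norm (S.π2 m) (S.π2 V)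
  have d1 : ⟪S.π1 m, S.π1 V⟫ ^ 2 ≤ ‖S.π1 m‖ ^ 2 * ‖S.π1 V‖ ^ 2 := by
    rw [← mul_pow, ← sq_abs]; exact pow_le_pow_left₀ (abs_nonneg _) c1 2
  have d2 : ⟪S.π1 m, S.π1 V⟫ ^ 2 ≤ ‖S.π2 m‖ ^ 2 * ‖S.π2 V‖ ^ 2 := by
    rw [← mul_pow, eq_neg_of_add_eq_zero_left ht, neg_sq, ← sq_abs]
    exact pow_le_pow_left₀ (abs_nonneg _) c2 2
  rw [Split.form_apply, Split.dX_apply, real_inner_self_eq_norm_sq, real_inner_self_eq_norm_sq]
  have hX' : S.X m = ‖S.π1 m‖ ^ 2 := rfl
  rw [← hX'] at d1 h1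
  rw [show ‖S.π2 m‖ ^ 2 = 1 - S.X m by linarith] at d2
  generalize ⟪S.π1 m, S.π1 V⟫ = k at *
  have n1 := sq_nonneg ‖S.π1 V‖
  have n2 := sq_nonneg ‖S.π2 V‖
  generalize ‖S.π1 V‖ ^ 2 = s1 at *
  generalize ‖S.π2 V‖ ^ 2 = s2 at *
  generalize S.X m = X at *
  by_cases hk : k = 0
  · subst hk
    rcases n1.eq_or_lt with h0 | h0
    · have : 0 < s2 := by linarith
      have := mul_pos hb this
      nlinarith
    · have := mul_pos ha h0
      nlinarith [mul_nonneg hb.le n2]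
  · have hk2 : 0 < k ^ 2 := by positivity
    have hX0 : 0 < X := lt_of_le_of_ne hX.1 fun h0 => by rw [← h0] at d1; linarith
    have hX1 : 0 < 1 - X := lt_of_le_of_ne (sub_nonneg.2 hX.2) fun h0 => by rw [← h0] at d2; linarith
    have hA := h.pA X ⟨hX0, by linarith⟩
    have e1 : a X * s1 + b X * s2 + c X * (2 * k * (2 * k)) =
        a X * (X * s1 - k ^ 2) / X + b X * ((1 - X) * s2 - k ^ 2) / (1 - X) +
          gA a b c X * (4 * k ^ 2) := by
      unfold gA; field_simp; ring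
    rw [e1]
    have f1 := div_nonneg (mul_nonneg ha.le (sub_nonneg.2 d1)) hX0.le
    have f2 := div_nonneg (mul_nonneg hb.le (sub_nonneg.2 d2)) hX1.le
    have f3 : 0 < gA a b c X * (4 * k ^ 2) := by positivity
    linarith

theorem GeoSph_gc (S : Split n p q) (a b c : ℝ → ℝ) (he : e ∈ atlas (En n) (Sph n)) {y : En n}
    (hy : y ∈ e.target) (v w : En n) :
    gc (S.met a b c) e y v w = S.form (a (S.X (par e y))) (b (S.X (par e y))) (c (S.X (par e y)))
      (par e y) (fderiv ℝ (par e) y v) (fderiv ℝ (par e) y w) := by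
  rw [GeoSph_fd he hy, GeoSph_fd he hy]
  rfl

theorem GeoSph_symm (S : Split n p q) (a b c : ℝ → ℝ) (m : Sph n) (v w : En n) :
    S.met a b c m v w = S.met a b c m w v := by
  change S.form _ _ _ _ (dι m v) (dι m w) = S.form _ _ _ _ (dι m w) (dι m v)
  rw [Split.form_apply, Split.form_apply, real_inner_comm (S.π1 _), real_inner_comm (S.π2 _),
    mul_comm (S.dX _ _)]

theorem GeoSph_mpos (S : Split n p q) {a b c : ℝ → ℝ} (h : Met a b c) (m : Sph n) (v : En n)
    (hv : v ≠ 0) : 0 < S.met a b c m v v :=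
  GeoSph_pos S h m (fun h0 => hv (GeoSph_inj m (h0.trans (map_zero _).symm)))
    ((GeoSph_range m _).2 ⟨v, rfl⟩)

theorem GeoSph_cm (S : Split n p q) {a b c : ℝ → ℝ} (h : Met a b c)
    (he : e ∈ atlas (En n) (Sph n)) : CM (gc (S.met a b c) e) e.target := by
  refine P255.IsRM.cm (g := S.met a b c) ⟨GeoSph_symm S a b c, GeoSph_mpos S h, fun e he => ?_⟩ he
  refine contDiffOn_clm_apply.2 fun v => contDiffOn_clm_apply.2 fun w => ?_
  have s0 := GeoSph_smooth he
  have s1 := s0.fderiv_of_isOpen (m := ∞) e.open_target (by simp)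
  have s2 : ∀ u, ContDiffOn ℝ ∞ (fun y => fderiv ℝ (par e) y u) e.target := fun u =>
    s1.clm_apply contDiffOn_const
  have p0 := S.π1.contDiff.comp_contDiffOn s0
  have p1 := fun u => S.π1.contDiff.comp_contDiffOn (s2 u)
  have p2 := fun u => S.π2.contDiff.comp_contDiffOn (s2 u)
  have sX : ContDiffOn ℝ ∞ (fun y => S.X (par e y)) e.target := p0.norm_sq ℝ
  have mX : MapsTo (fun y => S.X (par e y)) e.target I := fun y _ => GeoSph_mem S _
  refine ContDiffOn.congr (((ContDiffOn.comp h.sa sX mX).mul ((p1 v).inner ℝ (p1 w))).add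
    ((ContDiffOn.comp h.sb sX mX).mul ((p2 v).inner ℝ (p2 w))) |>.add
    ((ContDiffOn.comp h.sc sX mX).mul (((contDiffOn_const (c := (2 : ℝ))).mul (p0.inner ℝ (p1 v))).mul
      ((contDiffOn_const (c := (2 : ℝ))).mul (p0.inner ℝ (p1 w)))))) fun y hy => ?_
  refine (GeoSph_gc S a b c he hy v w).trans ?_
  rw [Split.form_apply, Split.dX_apply, Split.dX_apply]
  rfl

theorem GeoSph_ext (he : e ∈ atlas (En n) (Sph n)) :
    ∃ (F : En (n + 1) → En n) (W : Set (En (n + 1))), IsOpen W ∧ ContDiffOn ℝ ∞ F W ∧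
      (∀ z ∈ W, ‖z‖ = 1 → F z ∈ e.target ∧ par e (F z) = z) ∧
      ∀ y ∈ e.target, par e y ∈ W ∧ F (par e y) = y := by
  obtain ⟨v, rfl⟩ := he
  let U := (OrthonormalBasis.fromOrthogonalSpanSingleton (𝕜 := ℝ) n
    (ne_zero_of_mem_unit_sphere v)).repr
  have hF : ∀ m : Sph n, U (stereoToFun (v : En (n + 1)) m) = stereographic' n v m := fun m => rfl
  have hW : ∀ m : Sph n, innerSL ℝ (v : En (n + 1)) m ≠ 1 ↔ m ∈ (stereographic' n v).source :=
    fun m => by
      rw [stereographic'_source, mem_compl_singleton_iff, innerSL_apply_apply, ne_eq, ne_eq,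
        ← sphere_ext_iff, eq_comm]
  refine ⟨fun z => U (stereoToFun (v : En (n + 1)) z), {x | innerSL ℝ (v : En (n + 1)) x ≠ 1},
    isOpen_ne_fun (innerSL ℝ (v : En (n + 1))).continuous continuous_const,
    U.contDiff.comp_contDiffOn contDiffOn_stereoToFun, fun z hz h1 => ?_, fun y hy => ?_⟩
  · have hm := (hW ⟨z, mem_sphere_zero_iff_norm.2 h1⟩).1 hz
    refine ⟨by simp, ?_⟩
    exact congrArg Subtype.val ((stereographic' n v).left_inv hm)
  · exact ⟨(hW _).2 ((stereographic' n v).map_target hy),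
      (hF _).trans ((stereographic' n v).right_inv hy)⟩

theorem GeoSph_unit {k : ℕ} (ξ : En (k + 1)) : ∃ u : En (k + 1), u ≠ 0 ∧ 0 ≤ ⟪ξ, u⟫ := by
  have h : (EuclideanSpace.single 0 1 : En (k + 1)) ≠ 0 := by simp
  rcases le_total 0 ⟪ξ, EuclideanSpace.single 0 1⟫ with h1 | h1
  · exact ⟨_, h, h1⟩
  · exact ⟨-_, neg_ne_zero.2 h, by rw [inner_neg_right]; linarith⟩

theorem GeoSph_ne {k : ℕ} {ξ u : En (k + 1)} (hu : u ≠ 0) (h : 0 ≤ ⟪ξ, u⟫) {s : ℝ} (hs : 0 < s) :
    ξ + s • u ≠ 0 := by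
  intro h0
  have h1 : ⟪ξ + s • u, u⟫ = 0 := by rw [h0, inner_zero_left]
  rw [inner_add_left, real_inner_smul_left, real_inner_self_eq_norm_sq] at h1
  have := mul_pos hs (pow_pos (norm_pos_iff.2 hu) 2)
  linarith

theorem GeoSph_dense (S : Split n p q) (he : e ∈ atlas (En n) (Sph n)) :
    e.target ⊆ closure {y | y ∈ e.target ∧ S.X (par e y) ∈ Ioo (0 : ℝ) 1} := by
  intro y hy
  obtain ⟨F, W, hW, hF, h1, h2⟩ := GeoSph_ext he
  obtain ⟨u1, n1, i1⟩ := GeoSph_unit (S.π1 (par e y))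
  obtain ⟨u2, n2, i2⟩ := GeoSph_unit (S.π2 (par e y))
  have hz : ‖par e y‖ = 1 := norm_eq_of_mem_sphere (e.symm y)
  set w : ℝ → En (n + 1) := fun s => par e y + s • (S.ι1 u1 + S.ι2 u2) with hw
  set z : ℝ → En (n + 1) := fun s => ‖w s‖⁻¹ • w s with hz'
  have cw : Continuous w := by fun_prop
  have w0 : w 0 = par e y := by simp [hw]
  have cz : ContinuousAt z 0 :=
    (cw.norm.continuousAt.inv₀ (by rw [w0, hz]; exact one_ne_zero)).smul cw.continuousAt
  have z0 : z 0 = par e y := by simp [hz', w0, hz]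
  have tz : Tendsto z (𝓝[>] 0) (𝓝 (par e y)) := by
    rw [← z0]; exact cz.tendsto.mono_left nhdsWithin_le_nhds
  have tF := ((hF.continuousOn.continuousAt (hW.mem_nhds (h2 y hy).1)).tendsto.comp tz)
  rw [(h2 y hy).2] at tF
  refine mem_closure_of_tendsto tF ?_
  filter_upwards [tz (hW.mem_nhds (h2 y hy).1), self_mem_nhdsWithin] with s hs hs0
  have a1 : S.π1 (w s) ≠ 0 := by
    simpa [hw, S.e11, S.e12] using GeoSph_ne n1 i1 hs0
  have a2 : S.π2 (w s) ≠ 0 := by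
    simpa [hw, S.e21, S.e22] using GeoSph_ne n2 i2 hs0
  have a0 : w s ≠ 0 := fun h0 => a1 (by rw [h0, map_zero])
  have b0 : ‖w s‖⁻¹ ≠ 0 := inv_ne_zero (norm_ne_zero_iff.2 a0)
  have b1 : ‖z s‖ = 1 := norm_smul_inv_norm a0
  obtain ⟨c1, c2⟩ := h1 (z s) hs b1
  refine ⟨c1, ?_⟩
  rw [Function.comp_apply, c2]
  have d1 : S.π1 (z s) ≠ 0 := by rw [hz', map_smul]; exact smul_ne_zero b0 a1
  have d2 : S.π2 (z s) ≠ 0 := by rw [hz', map_smul]; exact smul_ne_zero b0 a2
  have d3 := GeoSph_norm S (z s)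
  have d4 := pow_pos (norm_pos_iff.2 d2) 2
  rw [b1] at d3
  exact ⟨pow_pos (norm_pos_iff.2 d1) 2, by unfold Split.X; linarith⟩

theorem sph : SphStmt := by
  refine ⟨GeoSph_split, fun _ _ _ => GeoSph_mem, fun _ _ => GeoSph_smooth, fun _ _ => GeoSph_ext,
    fun _ _ _ S a b c _ he _ hy => GeoSph_gc S a b c he hy, fun n e he y hy => ⟨fun v w h => ?_,
    fun V => (GeoSph_range (e.symm y) V).trans ⟨?_, ?_⟩⟩, fun _ _ _ => GeoSph_symm,
    fun _ _ _ S _ _ _ h => GeoSph_mpos S h, fun _ _ _ S _ _ _ h _ he => GeoSph_cm S h he,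
    fun _ _ _ S _ he => GeoSph_dense S he⟩
  · rw [GeoSph_fd he hy, GeoSph_fd he hy] at h
    rw [← P255.dC_dS he hy v, GeoSph_inj _ h, P255.dC_dS he hy]
  · rintro ⟨v, rfl⟩
    refine ⟨P255.dC e (e.symm y) v, ?_⟩
    have := P255.dS_dC he (e.map_target hy) v
    rw [e.right_inv hy] at this
    rw [GeoSph_fd he hy, this]
  · rintro ⟨v, rfl⟩
    exact ⟨_, (GeoSph_fd he hy v).symm⟩

end Vale.Agent.P244.Geo
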