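import Vale.Agent.P244.GeoWarpA

/-! Ricci tensor of the doubly warped metric. -/

open Set Filter
open scoped Manifold ContDiff Topology RealInnerProductSpace

set_option maxSynthPendingDepth 3

namespace Vale.Agent.P244.Geo

open Vale.Agent.P255 (CM chrL)

theorem GeoWarp_trace_prod {M N : Type} [AddCommGroup M] [Module ℝ M] [Module.Finite ℝ M]
    [AddCommGroup N] [Module ℝ N] [Module.Finite ℝ N] (f : M × N →ₗ[ℝ] M × N) :
    LinearMap.trace ℝ _ f =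
      LinearMap.trace ℝ _ (LinearMap.fst ℝ M N ∘ₗ f ∘ₗ LinearMap.inl ℝ M N) +
        LinearMap.trace ℝ _ (LinearMap.snd ℝ M N ∘ₗ f ∘ₗ LinearMap.inr ℝ M N) := by
  have : f = (f ∘ₗ LinearMap.inl ℝ M N) ∘ₗ LinearMap.fst ℝ M N +
      (f ∘ₗ LinearMap.inr ℝ M N) ∘ₗ LinearMap.snd ℝ M N := by
    refine LinearMap.ext fun x => ?_
    simp [← map_add]
  conv_lhs => rw [this]
  rw [map_add, LinearMap.trace_comp_comm' (LinearMap.fst ℝ M N),
    LinearMap.trace_comp_comm' (LinearMap.snd ℝ M N)]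

variable {E1 E2 : Type} [NormedAddCommGroup E1] [InnerProductSpace ℝ E1]
  [NormedAddCommGroup E2] [InnerProductSpace ℝ E2] {A P R : ℝ → ℝ} {U : Set ℝ}

theorem GeoWarp_trace [FiniteDimensional ℝ E1] [FiniteDimensional ℝ E2]
    (f : ℝ × E1 × E2 →ₗ[ℝ] ℝ × E1 × E2) :
    LinearMap.trace ℝ _ f = (f (1, 0, 0)).1 +
      ∑ i, ⟪stdOrthonormalBasis ℝ E1 i, (f (0, stdOrthonormalBasis ℝ E1 i, 0)).2.1⟫ +
      ∑ i, ⟪stdOrthonormalBasis ℝ E2 i, (f (0, 0, stdOrthonormalBasis ℝ E2 i)).2.2⟫ := by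
  rw [GeoWarp_trace_prod, GeoWarp_trace_prod, add_assoc,
    LinearMap.trace_eq_sum_inner _ (stdOrthonormalBasis ℝ E1),
    LinearMap.trace_eq_sum_inner _ (stdOrthonormalBasis ℝ E2)]
  congr 1
  rw [LinearMap.trace_eq_sum_inner _ (OrthonormalBasis.singleton Unit ℝ)]
  simp
  rfl

theorem GeoWarp_sum {F : Type} [NormedAddCommGroup F] [InnerProductSpace ℝ F]
    [FiniteDimensional ℝ F] (p p' : F) (c1 c2 : ℝ) (g : F → ℝ)
    (hg : ∀ e : F, ⟪e, e⟫ = 1 → g e = c1 * (⟪p, e⟫ * ⟪e, p'⟫) + c2) :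
    ∑ i, g (stdOrthonormalBasis ℝ F i) = c1 * ⟪p, p'⟫ + Module.finrank ℝ F * c2 := by
  rw [Finset.sum_congr rfl fun i _ => hg _ (by
    rw [real_inner_self_eq_norm_sq, (stdOrthonormalBasis ℝ F).orthonormal.1 i]; norm_num),
    Finset.sum_add_distrib, ← Finset.mul_sum, OrthonormalBasis.sum_inner_mul_inner]
  simp

/-- The derivative of the Christoffel map at `(r,0,0)`. -/
noncomputable def GeoWarp_dd (a b c m n : ℝ) (x v w : ℝ × E1 × E2) : ℝ × E1 × E2 :=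
  (a * x.1 * (v.1 * w.1) - b * x.1 * 4 * ⟪v.2.1, w.2.1⟫ - c * x.1 * 4 * ⟪v.2.2, w.2.2⟫,
    (m * x.1) • (v.1 • w.2.1 + w.1 • v.2.1) + (-2 : ℝ) •
      (⟪x.2.1, v.2.1⟫ • w.2.1 + ⟪x.2.1, w.2.1⟫ • v.2.1 - ⟪v.2.1, w.2.1⟫ • x.2.1),
    (n * x.1) • (v.1 • w.2.2 + w.1 • v.2.2) + (-2 : ℝ) •
      (⟪x.2.2, v.2.2⟫ • w.2.2 + ⟪x.2.2, w.2.2⟫ • v.2.2 - ⟪v.2.2, w.2.2⟫ • x.2.2))

theorem GeoWarp_lin {F : Type} [NormedAddCommGroup F] [InnerProductSpace ℝ F] (p p' : F) :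
    HasFDerivAt (fun u : F => GeoWarp_k u • (⟪u, p⟫ • p' + ⟪u, p'⟫ • p - ⟪p, p'⟫ • u))
      ((-2 : ℝ) • (((ipL F).flip p).smulRight p' + ((ipL F).flip p').smulRight p -
        ⟪p, p'⟫ • ContinuousLinearMap.id ℝ F)) 0 := by
  have hk := (GeoWarp_k_smooth (F := F).differentiable (by simp) 0).hasFDerivAt
  have hl := (((ipL F).flip p).smulRight p' + ((ipL F).flip p').smulRight p -
        ⟪p, p'⟫ • ContinuousLinearMap.id ℝ F).hasFDerivAt (x := 0)
  refine (hk.fun_smul hl).congr_fderiv ?_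
  ext x
  simp [GeoWarp_k]

theorem GeoWarp_dGam {r a b c m n : ℝ}
    (ha : HasDerivAt (fun x => deriv A x / (2 * A x)) a r)
    (hb : HasDerivAt (fun x => deriv P x / (2 * A x)) b r)
    (hc : HasDerivAt (fun x => deriv R x / (2 * A x)) c r)
    (hm : HasDerivAt (fun x => deriv P x / (2 * P x)) m r)
    (hn : HasDerivAt (fun x => deriv R x / (2 * R x)) n r) (x v w : ℝ × E1 × E2) :
    fderiv ℝ (fun y => GeoWarp_G A P R y v w) (r, 0, 0) x = GeoWarp_dd a b c m n x v w := by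
  set y : ℝ × E1 × E2 := (r, 0, 0) with hy
  have c1 := (GeoWarp_cf_has (0 : E1)).comp y (q1 (E1 := E1) (E2 := E2)).hasFDerivAt
  have c2 := (GeoWarp_cf_has (0 : E2)).comp y (q2 (E1 := E1) (E2 := E2)).hasFDerivAt
  have l1 := (GeoWarp_lin v.2.1 w.2.1).comp y (q1 (E1 := E1) (E2 := E2)).hasFDerivAt
  have l2 := (GeoWarp_lin v.2.2 w.2.2).comp y (q2 (E1 := E1) (E2 := E2)).hasFDerivAt
  have f0 := (((GeoWarp_fst (y := y) ha).mul_const (v.1 * w.1)).sub
    (((GeoWarp_fst (y := y) hb).mul c1).mul_const ⟪v.2.1, w.2.1⟫)).sub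
    (((GeoWarp_fst (y := y) hc).mul c2).mul_const ⟪v.2.2, w.2.2⟫)
  have f1 := ((GeoWarp_fst (y := y) hm).smul_const (v.1 • w.2.1 + w.1 • v.2.1)).add l1
  have f2 := ((GeoWarp_fst (y := y) hn).smul_const (v.1 • w.2.2 + w.1 • v.2.2)).add l2
  refine (congrArg (fun T => T x) (f0.prodMk (f1.prodMk f2)).fderiv).trans ?_
  refine Prod.ext ?_ (Prod.ext ?_ ?_)
  · simp [GeoWarp_dd, q1, q2, hy, cf]
    ring
  · simp [GeoWarp_dd, q1, q2]
  · simp [GeoWarp_dd, q1, q2]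

theorem GeoWarp_quot {f g : ℝ → ℝ} (hU : IsOpen U) (hf : ContDiffOn ℝ ∞ f U)
    (hg : ContDiffOn ℝ ∞ g U) {r : ℝ} (hr : r ∈ U) (h0 : 0 < g r) :
    HasDerivAt (fun x => deriv f x / (2 * g x))
      (deriv (deriv f) r / (2 * g r) - deriv f r * deriv g r / (2 * g r ^ 2)) r := by
  refine ((GeoWarp_has2 hU hf hr).div ((GeoWarp_has hU hg hr).const_mul 2)
    (by positivity)).congr_deriv ?_
  field_simp

theorem warp : WarpStmt := by
  intro E1 E2 _ _ _ _ _ _ A P R U hU hA hP hR hpos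
  have h : GeoWarp_H A P R U := ⟨hU, hA, hP, hR, hpos⟩
  have hcm := GeoWarp_cm (E1 := E1) (E2 := E2) h
  refine ⟨hcm, fun r hr v w => ?_⟩
  obtain ⟨pA, pP, pR⟩ := hpos r hr
  have hy : ((r, 0, 0) : ℝ × E1 × E2) ∈ U ×ˢ univ := ⟨hr, trivial⟩
  set a := deriv (deriv A) r / (2 * A r) - deriv A r * deriv A r / (2 * A r ^ 2) with ha
  set b := deriv (deriv P) r / (2 * A r) - deriv P r * deriv A r / (2 * A r ^ 2) with hb
  set c := deriv (deriv R) r / (2 * A r) - deriv R r * deriv A r / (2 * A r ^ 2) with hc'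
  set m := deriv (deriv P) r / (2 * P r) - deriv P r * deriv P r / (2 * P r ^ 2) with hm
  set n := deriv (deriv R) r / (2 * R r) - deriv R r * deriv R r / (2 * R r ^ 2) with hn
  have hd : ∀ x v w : ℝ × E1 × E2, fderiv ℝ (chrL (wG A P R)) (r, 0, 0) x v w =
      GeoWarp_dd a b c m n x v w := fun x v w => by
    rw [← hcm.fderiv_chr hy]
    have : (fun y => P255.chr (wG A P R) y v w) =ᶠ[𝓝 (r, 0, 0)] fun y => GeoWarp_G A P R y v w := by
      filter_upwards [hcm.isOpen.mem_nhds hy] with y hy using GeoWarp_chr h hy v w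
    rw [this.fderiv_eq]
    exact GeoWarp_dGam (GeoWarp_quot hU hA hA hr pA) (GeoWarp_quot hU hP hA hr pA)
      (GeoWarp_quot hU hR hA hr pA) (GeoWarp_quot hU hP hP hr pP) (GeoWarp_quot hU hR hR hr pR) x v w
  have hc : ∀ v w : ℝ × E1 × E2, chrL (wG A P R) (r, 0, 0) v w = GeoWarp_G A P R (r, 0, 0) v w :=
    fun v w => by rw [hcm.chrL_apply hy, GeoWarp_chr h hy]
  have hZ : deriv (fun x => (A x)⁻¹) r = -deriv A r / A r ^ 2 :=
    ((GeoWarp_has hU hA hr).fun_inv pA.ne').deriv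
  unfold ricT
  rw [GeoWarp_trace]
  simp only [riemL, ContinuousLinearMap.coe_coe, sub_apply, add_apply,
    ContinuousLinearMap.flip_apply, ContinuousLinearMap.comp_apply, hd, hc]
  rw [GeoWarp_sum v.2.1 w.2.1 (-4 + 4 * (deriv P r / (2 * P r)) * (deriv P r / (2 * A r)))
      (4 * ⟪v.2.1, w.2.1⟫ - m * v.1 * w.1 - (deriv P r / (2 * P r)) ^ 2 * v.1 * w.1 +
        deriv P r / (2 * P r) * (GeoWarp_G A P R (r, 0, 0) v w).1)
      (fun e => ⟪e, (GeoWarp_dd a b c m n (0, e, 0) v w - GeoWarp_dd a b c m n v (0, e, 0) w +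
        GeoWarp_G A P R (r, 0, 0) (0, e, 0) (GeoWarp_G A P R (r, 0, 0) v w) -
        GeoWarp_G A P R (r, 0, 0) v (GeoWarp_G A P R (r, 0, 0) (0, e, 0) w)).2.1⟫),
    GeoWarp_sum v.2.2 w.2.2 (-4 + 4 * (deriv R r / (2 * R r)) * (deriv R r / (2 * A r)))
      (4 * ⟪v.2.2, w.2.2⟫ - n * v.1 * w.1 - (deriv R r / (2 * R r)) ^ 2 * v.1 * w.1 +
        deriv R r / (2 * R r) * (GeoWarp_G A P R (r, 0, 0) v w).1)
      (fun e => ⟪e, (GeoWarp_dd a b c m n (0, 0, e) v w - GeoWarp_dd a b c m n v (0, 0, e) w +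
        GeoWarp_G A P R (r, 0, 0) (0, 0, e) (GeoWarp_G A P R (r, 0, 0) v w) -
        GeoWarp_G A P R (r, 0, 0) v (GeoWarp_G A P R (r, 0, 0) (0, 0, e) w)).2.2⟫)]
  · simp only [GeoWarp_dd, GeoWarp_G, e0, e1, e2, kG, lG, mG, kk, ll, mx, hZ, hb, hc', hm, hn, cf,
      Prod.fst_add, Prod.fst_sub, inner_zero_left, inner_add_left, inner_add_right,
      real_inner_smul_left, real_inner_smul_right, inner_zero_right, norm_zero, smul_zero,
      zero_smul, add_zero, sub_zero, one_smul, inner_sub_left, inner_sub_right]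
    field_simp
    ring
  · intro e he
    simp only [GeoWarp_dd, GeoWarp_G, cf, Prod.snd_add, Prod.snd_sub, inner_zero_left,
      inner_add_left, inner_add_right, real_inner_smul_left, real_inner_smul_right,
      inner_zero_right, norm_zero, smul_zero, zero_smul, add_zero, sub_zero, one_smul,
      inner_sub_left, inner_sub_right, he, real_inner_comm e]
    ring
  · intro e he
    simp only [GeoWarp_dd, GeoWarp_G, cf, Prod.snd_add, Prod.snd_sub, Prod.fst_add, Prod.fst_sub,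
      inner_zero_left,
      inner_add_left, inner_add_right, real_inner_smul_left, real_inner_smul_right,
      inner_zero_right, norm_zero, smul_zero, zero_smul, add_zero, sub_zero, one_smul,
      inner_sub_left, inner_sub_right, he, real_inner_comm e]
    ring

end Vale.Agent.P244.Geo
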