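import Vale.Agent.P244.GeoPar
import Vale.Agent.P244.GeoRep
import Vale.Agent.P244.GeoPol
import Vale.Agent.P244.GeoFlow
import Vale.Agent.P244.GeoNat
import Vale.Agent.P244.GeoRic
import Vale.Agent.P244.GeoWarp
import Vale.Agent.P244.GeoSph
import Vale.Agent.P244.GeoOff
import Vale.Agent.P244.GeoAsm

/-! P244: the geometric part, assembled. -/

namespace Vale.Agent.P244.Geo

theorem geo (hM : MidStmt) (hD : DictStmt) (hG : GeqStmt) (hT : TransStmt) : Geo.GeoStmt :=
  geo_of (flow hM hD hG hT) (pol par_ode rep) (asm ricS sph (off nat ricS warp sph))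

end Vale.Agent.P244.Geo
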