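import Vale.Agent.P244.GeoStm

/-! Polar-stereographic parametrisation of the sphere. -/

open Set Filter
open scoped Manifold ContDiff Topology RealInnerProductSpace

set_option maxSynthPendingDepth 3

namespace Vale.Agent.P244.Geo

section

variable {E F : Type} [NormedAddCommGroup E] [InnerProductSpace ℝ E]
  [NormedAddCommGroup F] [InnerProductSpace ℝ F]

/-- An isometric embedding onto vectors orthogonal to the unit vector `m`. -/
structure GeoOff_Fr (j : E →L[ℝ] F) (m : F) : Prop where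
  iso : ∀ u v, ⟪j u, j v⟫ = ⟪u, v⟫
  ort : ∀ u, ⟪m, j u⟫ = 0
  one : ⟪m, m⟫ = 1

noncomputable def GeoOff_s (j : E →L[ℝ] F) (m : F) (u : E) : F :=
  (2 / (1 + ‖u‖ ^ 2)) • (j u + m) - m

noncomputable def GeoOff_ds (j : E →L[ℝ] F) (m : F) (u p : E) : F :=
  (2 / (1 + ‖u‖ ^ 2)) • j p - (4 * ⟪u, p⟫ / (1 + ‖u‖ ^ 2) ^ 2) • (j u + m)

variable {j : E →L[ℝ] F} {m : F}

theorem GeoOff_s_zero : GeoOff_s j m 0 = m := by
  simp [GeoOff_s, two_smul]

theorem GeoOff_s_smooth : ContDiff ℝ ∞ (GeoOff_s j m) :=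
  ((contDiff_const.div (contDiff_const.add (contDiff_norm_sq ℝ))
    fun u => by positivity).smul (j.contDiff.add contDiff_const)).sub contDiff_const

theorem GeoOff_s_fd (u p : E) : fderiv ℝ (GeoOff_s j m) u p = GeoOff_ds j m u p := by
  have h0 : 0 < 1 + ‖u‖ ^ 2 := by positivity
  have h1 : HasDerivAt (fun s : ℝ => 2 / (1 + s)) (-2 / (1 + ‖u‖ ^ 2) ^ 2) (‖u‖ ^ 2) := by
    refine ((hasDerivAt_const _ (2 : ℝ)).div ((hasDerivAt_id (‖u‖ ^ 2)).const_add 1)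
      h0.ne').congr_deriv ?_
    simp
  have h2 := h1.comp_hasFDerivAt u (hasStrictFDerivAt_norm_sq u).hasFDerivAt
  have h3 := (h2.fun_smul (j.hasFDerivAt.add_const m)).sub_const m
  refine (congrArg (fun T => T p) h3.fderiv).trans ?_
  simp only [GeoOff_ds, add_apply, smul_apply, ContinuousLinearMap.smulRight_apply,
    innerSL_apply_apply, smul_eq_mul, two_smul, Function.comp_apply, sub_eq_add_neg, ← neg_smul]
  congr 2
  ring

theorem GeoOff_s_one (h : GeoOff_Fr j m) (u : E) : ⟪GeoOff_s j m u, GeoOff_s j m u⟫ = 1 := by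
  have h0 : 0 < 1 + ‖u‖ ^ 2 := by positivity
  simp only [GeoOff_s, inner_sub_left, inner_sub_right, inner_add_left, inner_add_right,
    real_inner_smul_left, real_inner_smul_right, h.iso, h.ort, h.one, real_inner_comm m,
    real_inner_self_eq_norm_sq u]
  field_simp
  ring

theorem GeoOff_s_ds (h : GeoOff_Fr j m) (u p : E) : ⟪GeoOff_s j m u, GeoOff_ds j m u p⟫ = 0 := by
  have h0 : 0 < 1 + ‖u‖ ^ 2 := by positivity
  simp only [GeoOff_s, GeoOff_ds, inner_sub_left, inner_sub_right, inner_add_left, inner_add_right,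
    real_inner_smul_left, real_inner_smul_right, h.iso, h.ort, h.one, real_inner_comm m,
    real_inner_self_eq_norm_sq u]
  field_simp
  ring

theorem GeoOff_ds_ds (h : GeoOff_Fr j m) (u p p' : E) :
    ⟪GeoOff_ds j m u p, GeoOff_ds j m u p'⟫ = cf u * ⟪p, p'⟫ := by
  have h0 : 0 < 1 + ‖u‖ ^ 2 := by positivity
  simp only [GeoOff_ds, cf, inner_sub_left, inner_sub_right, inner_add_left, inner_add_right,
    real_inner_smul_left, real_inner_smul_right, h.iso, h.ort, h.one, real_inner_comm m,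
    real_inner_self_eq_norm_sq u, real_inner_comm u p]
  field_simp
  ring

end

variable {n p q : ℕ} {E1 E2 : Type} [NormedAddCommGroup E1] [InnerProductSpace ℝ E1]
  [NormedAddCommGroup E2] [InnerProductSpace ℝ E2]

/-- The parametrisation. -/
noncomputable def GeoOff_Sig (S : Split n p q) (j1 : E1 →L[ℝ] En (p + 1)) (m1 : En (p + 1))
    (j2 : E2 →L[ℝ] En (q + 1)) (m2 : En (q + 1)) (y : ℝ × E1 × E2) : En (n + 1) :=
  √y.1 • S.ι1 (GeoOff_s j1 m1 y.2.1) + √(1 - y.1) • S.ι2 (GeoOff_s j2 m2 y.2.2)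

variable {S : Split n p q} {j1 : E1 →L[ℝ] En (p + 1)} {m1 : En (p + 1)}
  {j2 : E2 →L[ℝ] En (q + 1)} {m2 : En (q + 1)}

theorem GeoOff_Sig_smooth : ContDiffOn ℝ ∞ (GeoOff_Sig S j1 m1 j2 m2) (Ioo 0 1 ×ˢ univ) := by
  unfold GeoOff_Sig
  refine ((contDiffOn_fst.sqrt fun y hy => hy.1.1.ne').smul ?_).add
    (((contDiffOn_const.sub contDiffOn_fst).sqrt fun y hy => (sub_pos.2 hy.1.2).ne').smul ?_)
  · exact (S.ι1.contDiff.comp (GeoOff_s_smooth.comp (contDiff_fst.comp contDiff_snd))).contDiffOn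
  · exact (S.ι2.contDiff.comp (GeoOff_s_smooth.comp (contDiff_snd.comp contDiff_snd))).contDiffOn

theorem GeoOff_pi1 (y : ℝ × E1 × E2) :
    S.π1 (GeoOff_Sig S j1 m1 j2 m2 y) = √y.1 • GeoOff_s j1 m1 y.2.1 := by
  simp [GeoOff_Sig, S.e11, S.e12]

theorem GeoOff_pi2 (y : ℝ × E1 × E2) :
    S.π2 (GeoOff_Sig S j1 m1 j2 m2 y) = √(1 - y.1) • GeoOff_s j2 m2 y.2.2 := by
  simp [GeoOff_Sig, S.e21, S.e22]

theorem GeoOff_dpi {y : ℝ × E1 × E2} (hy : y ∈ Ioo (0 : ℝ) 1 ×ˢ univ) (v : ℝ × E1 × E2) :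
    S.π1 (fderiv ℝ (GeoOff_Sig S j1 m1 j2 m2) y v) =
      √y.1 • GeoOff_ds j1 m1 y.2.1 v.2.1 + (v.1 / (2 * √y.1)) • GeoOff_s j1 m1 y.2.1 ∧
    S.π2 (fderiv ℝ (GeoOff_Sig S j1 m1 j2 m2) y v) =
      √(1 - y.1) • GeoOff_ds j2 m2 y.2.2 v.2.2 + (-v.1 / (2 * √(1 - y.1))) • GeoOff_s j2 m2 y.2.2 := by
  have r1 := (Real.hasDerivAt_sqrt hy.1.1.ne').comp_hasFDerivAt y
    (hasFDerivAt_fst (𝕜 := ℝ) (p := y))
  have r2 := (Real.hasDerivAt_sqrt (sub_pos.2 hy.1.2).ne').comp_hasFDerivAt y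
    ((hasFDerivAt_fst (𝕜 := ℝ) (p := y)).const_sub 1)
  have s1 := S.ι1.hasFDerivAt.comp y
    (((GeoOff_s_smooth (j := j1) (m := m1)).differentiable (by simp) y.2.1).hasFDerivAt.comp y
      (q1 (E1 := E1) (E2 := E2)).hasFDerivAt)
  have s2 := S.ι2.hasFDerivAt.comp y
    (((GeoOff_s_smooth (j := j2) (m := m2)).differentiable (by simp) y.2.2).hasFDerivAt.comp y
      (q2 (E1 := E1) (E2 := E2)).hasFDerivAt)
  have h := ((r1.fun_smul s1).add (r2.fun_smul s2)).fderiv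
  have e : fderiv ℝ (GeoOff_Sig S j1 m1 j2 m2) y v = _ := congrArg (fun T => T v) h
  rw [e]
  constructor
  · simp [q1, q2, S.e11, S.e12, GeoOff_s_fd]
    congr 1
    ring
  · simp [q1, q2, S.e21, S.e22, GeoOff_s_fd, ← neg_smul]
    congr 1
    ring

theorem GeoOff_X (h1 : GeoOff_Fr j1 m1) {y : ℝ × E1 × E2} (hy : y ∈ Ioo (0 : ℝ) 1 ×ˢ univ) :
    S.X (GeoOff_Sig S j1 m1 j2 m2 y) = y.1 := by
  rw [Split.X, GeoOff_pi1, ← real_inner_self_eq_norm_sq, real_inner_smul_left,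
    real_inner_smul_right, GeoOff_s_one h1, mul_one, Real.mul_self_sqrt hy.1.1.le]

theorem GeoOff_norm (h1 : GeoOff_Fr j1 m1) (h2 : GeoOff_Fr j2 m2) {y : ℝ × E1 × E2}
    (hy : y ∈ Ioo (0 : ℝ) 1 ×ˢ univ) : ‖GeoOff_Sig S j1 m1 j2 m2 y‖ = 1 := by
  have : ‖GeoOff_Sig S j1 m1 j2 m2 y‖ ^ 2 = 1 := by
    rw [← real_inner_self_eq_norm_sq, S.inn, GeoOff_pi1, GeoOff_pi2]
    simp only [real_inner_smul_left, real_inner_smul_right, GeoOff_s_one h1, GeoOff_s_one h2,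
      mul_one]
    rw [Real.mul_self_sqrt hy.1.1.le, Real.mul_self_sqrt (sub_pos.2 hy.1.2).le]
    ring
  exact (pow_eq_one_iff_of_nonneg (norm_nonneg _) two_ne_zero).1 this

theorem GeoOff_form (h1 : GeoOff_Fr j1 m1) (h2 : GeoOff_Fr j2 m2) {y : ℝ × E1 × E2}
    (hy : y ∈ Ioo (0 : ℝ) 1 ×ˢ univ) (a b c : ℝ) (v w : ℝ × E1 × E2) :
    S.form a b c (GeoOff_Sig S j1 m1 j2 m2 y) (fderiv ℝ (GeoOff_Sig S j1 m1 j2 m2) y v)
        (fderiv ℝ (GeoOff_Sig S j1 m1 j2 m2) y w) =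
      (c + a / (4 * y.1) + b / (4 * (1 - y.1))) * (v.1 * w.1) +
        y.1 * a * cf y.2.1 * ⟪v.2.1, w.2.1⟫ + (1 - y.1) * b * cf y.2.2 * ⟪v.2.2, w.2.2⟫ := by
  obtain ⟨r, hr, hr'⟩ : ∃ r, 0 < r ∧ √y.1 = r := ⟨_, Real.sqrt_pos.2 hy.1.1, rfl⟩
  obtain ⟨s, hs, hs'⟩ : ∃ s, 0 < s ∧ √(1 - y.1) = s := ⟨_, Real.sqrt_pos.2 (sub_pos.2 hy.1.2), rfl⟩
  have e1 : y.1 = r * r := by rw [← hr', Real.mul_self_sqrt hy.1.1.le]
  have e2 : 1 - y.1 = s * s := by rw [← hs', Real.mul_self_sqrt (sub_pos.2 hy.1.2).le]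
  rw [Split.form_apply, Split.dX_apply, Split.dX_apply, (GeoOff_dpi hy v).1, (GeoOff_dpi hy v).2,
    (GeoOff_dpi hy w).1, (GeoOff_dpi hy w).2, GeoOff_pi1, hr', hs', e2]
  simp only [inner_add_left, inner_add_right, real_inner_smul_left, real_inner_smul_right,
    GeoOff_s_one h1, GeoOff_s_one h2, GeoOff_s_ds h1, GeoOff_s_ds h2, GeoOff_ds_ds h1,
    GeoOff_ds_ds h2, real_inner_comm (GeoOff_s j1 m1 y.2.1), real_inner_comm (GeoOff_s j2 m2 y.2.2)]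
  rw [e1]
  field_simp
  ring

end Vale.Agent.P244.Geo
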