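import Vale.Agent.P244.GeoStm
import Vale.Agent.P244.EClosed

/-! P244: a scalar ODE depending smoothly on a parameter in `[0,1]`. -/

open Set Filter Asymptotics
open scoped ContDiff Topology NNReal

namespace Vale.Agent.P244.Geo

/-- The domain of the right side. -/
abbrev GeoPar_D (S : ℝ) : Set (ℝ × ℝ × ℝ) := Icc 0 S ×ˢ univ ×ˢ I

/-- A compact part of the domain. -/
abbrev GeoPar_Q (S a : ℝ) : Set (ℝ × ℝ × ℝ) := Icc 0 S ×ˢ Icc (-a) a ×ˢ I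

/-- Joint continuity. -/
abbrev GeoPar_C (S : ℝ) (u : Fn) : Prop :=
  ContinuousOn (fun p : ℝ × ℝ => u p.1 p.2) (Icc 0 S ×ˢ I)

variable {S : ℝ}

theorem GeoPar_sub (a : ℝ) : GeoPar_Q S a ⊆ GeoPar_D S := fun _ h => ⟨h.1, trivial, h.2.2⟩

theorem GeoPar_cpt (a : ℝ) : IsCompact (GeoPar_Q S a) :=
  isCompact_Icc.prod (isCompact_Icc.prod isCompact_Icc)

theorem GeoPar_cvx (a : ℝ) : Convex ℝ (GeoPar_Q S a) :=
  (convex_Icc _ _).prod ((convex_Icc _ _).prod (convex_Icc _ _))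

theorem GeoPar_gr {K ε : ℝ} (hK : 0 ≤ K) (hε : 0 ≤ ε) {r r' : ℝ → ℝ} (h0 : r 0 = 0)
    (hr : ∀ t ∈ Icc 0 S, HasDerivWithinAt r (r' t) (Icc 0 S) t)
    (hb : ∀ t ∈ Icc 0 S, |r' t| ≤ K * |r t| + ε) {t : ℝ} (ht : t ∈ Icc 0 S) :
    |r t| ≤ ε * |gronwallBound 0 K 1 S| := by
  have h := norm_le_gronwallBound_of_norm_deriv_right_le (δ := 0) (K := K) (ε := ε)
    (fun s hs => (hr s hs).continuousWithinAt)
    (fun s hs => (hr s (Ico_subset_Icc_self hs)).mono_of_mem_nhdsWithin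
      (Icc_mem_nhdsGE_of_mem hs)) (by simp [h0]) (fun s hs => hb s (Ico_subset_Icc_self hs)) t ht
  have h2 := gronwallBound_mono le_rfl hε hK (show t - 0 ≤ S by simpa using ht.2)
  refine (h.trans h2).trans (le_trans (le_of_eq ?_)
    (mul_le_mul_of_nonneg_left (le_abs_self _) hε))
  unfold gronwallBound
  split_ifs <;> ring

theorem GeoPar_unif {E : Type} [NormedAddCommGroup E] [NormedSpace ℝ E] {Q : Set E}
    (hc : IsCompact Q) (hv : Convex ℝ Q) {f : E → ℝ} {f' : E → E →L[ℝ] ℝ}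
    (hf : ∀ p ∈ Q, HasFDerivWithinAt f (f' p) Q p) (hf' : ContinuousOn f' Q) {ε : ℝ}
    (hε : 0 < ε) : ∃ δ > 0, ∀ p ∈ Q, ∀ q ∈ Q, ‖q - p‖ < δ →
      |f q - f p - f' p (q - p)| ≤ ε * ‖q - p‖ := by
  obtain ⟨δ, hδ, H⟩ := Metric.uniformContinuousOn_iff.1
    (hc.uniformContinuousOn_of_continuous hf') ε hε
  refine ⟨δ, hδ, fun p hp q hq h => ?_⟩
  exact (hv.inter (convex_ball p δ)).norm_image_sub_le_of_norm_hasFDerivWithin_le'
    (fun x hx => (hf x hx.1).mono inter_subset_left)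
    (fun x hx => by rw [← dist_eq_norm]; exact (H x hx.1 p hp hx.2).le)
    ⟨hp, Metric.mem_ball_self hδ⟩ ⟨hq, mem_ball_iff_norm.2 h⟩

theorem GeoPar_var {K X : ℝ} (hK : 0 ≤ K) {χ z : Fn} {w A B : ℝ → ℝ} (hX : X ∈ I)
    (h0 : ∀ Y ∈ I, χ 0 Y = 0)
    (hχ : ∀ t ∈ Icc 0 S, ∀ Y ∈ I, HasDerivWithinAt (fun s => χ s Y) (z t Y) (Icc 0 S) t)
    (hw0 : w 0 = 0) (hw : ∀ t ∈ Icc 0 S, HasDerivWithinAt w (A t * w t + B t) (Icc 0 S) t)
    (hA : ∀ t ∈ Icc 0 S, |A t| ≤ K)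
    (he : ∀ ε > 0, ∀ᶠ Y in 𝓝[I] X, ∀ t ∈ Icc 0 S,
      |z t Y - z t X - (A t * (χ t Y - χ t X) + B t * (Y - X))| ≤ ε * |Y - X|)
    {t : ℝ} (ht : t ∈ Icc 0 S) : HasDerivWithinAt (χ t) (w t) I X := by
  refine hasDerivWithinAt_iff_isLittleO.2 (isLittleO_iff.2 fun c hc => ?_)
  have hM := abs_nonneg (gronwallBound 0 K 1 S)
  filter_upwards [he (c / (|gronwallBound 0 K 1 S| + 1)) (by positivity), self_mem_nhdsWithin]
    with Y hY hI
  have h := GeoPar_gr (S := S) hK (ε := c / (|gronwallBound 0 K 1 S| + 1) * |Y - X|)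
    (by positivity) (r := fun s => χ s Y - χ s X - (Y - X) * w s)
    (r' := fun s => z s Y - z s X - (Y - X) * (A s * w s + B s)) (by simp [h0 Y hI, h0 X hX, hw0])
    (fun s hs => ((hχ s hs Y hI).sub (hχ s hs X hX)).sub ((hw s hs).const_mul _))
    (fun s hs => by
      have e : z s Y - z s X - (Y - X) * (A s * w s + B s) =
          A s * (χ s Y - χ s X - (Y - X) * w s) +
          (z s Y - z s X - (A s * (χ s Y - χ s X) + B s * (Y - X))) := by ring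
      rw [e]
      refine (abs_add_le _ _).trans (add_le_add ?_ (hY s hs))
      rw [abs_mul]
      exact mul_le_mul_of_nonneg_right (hA s hs) (abs_nonneg _)) ht
  refine h.trans ?_
  rw [Real.norm_eq_abs, mul_right_comm]
  refine mul_le_mul_of_nonneg_right ?_ (abs_nonneg _)
  rw [div_mul_eq_mul_div, div_le_iff₀ (by positivity)]
  nlinarith

theorem GeoPar_prim {u : Fn} (hS : 0 < S) (hu : GeoPar_C S u) : ∃ U : Fn, GeoPar_C S U ∧
    (∀ X ∈ I, U 0 X = 0) ∧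
    ∀ t ∈ Icc 0 S, ∀ X ∈ I, HasDerivWithinAt (fun s => U s X) (u t X) (Icc 0 S) t := by
  have h1 : Continuous fun q : ℝ × ℝ => u (projIcc 0 S hS.le q.1) (projIcc 0 1 zero_le_one q.2) :=
    hu.comp_continuous (f := fun q : ℝ × ℝ =>
      ((projIcc 0 S hS.le q.1 : ℝ), (projIcc 0 1 zero_le_one q.2 : ℝ)))
      ((continuous_subtype_val.comp ((continuous_projIcc (h := hS.le)).comp continuous_fst)).prodMk
        (continuous_subtype_val.comp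
          ((continuous_projIcc (h := zero_le_one)).comp continuous_snd)))
      fun q => ⟨Subtype.prop _, Subtype.prop _⟩
  refine ⟨fun t X => ∫ s in (0 : ℝ)..t, u (projIcc 0 S hS.le s) (projIcc 0 1 zero_le_one X),
    Continuous.continuousOn ?_, by simp, fun t ht X hX => ?_⟩
  · exact intervalIntegral.continuous_parametric_intervalIntegral_of_continuous
      (f := fun (p : ℝ × ℝ) (s : ℝ) => u (projIcc 0 S hS.le s) (projIcc 0 1 zero_le_one p.2))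
      (h1.comp (f := fun q : (ℝ × ℝ) × ℝ => (q.2, q.1.2)) (by fun_prop)) continuous_fst
  · have := ((h1.comp (f := fun s : ℝ => (s, X)) (by fun_prop)).integral_hasStrictDerivAt
      0 t).hasDerivAt.hasDerivWithinAt (s := Icc 0 S)
    simpa only [Function.comp_def, projIcc_of_mem _ ht, projIcc_of_mem _ hX] using this

variable {ψ : ℝ × ℝ × ℝ → ℝ} {C : ℝ}

theorem GeoPar_lipψ (hψ : ContDiffOn ℝ ∞ ψ (GeoPar_D S)) (a : ℝ) :
    ∃ K, LipschitzOnWith K ψ (GeoPar_Q S a) :=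
  (hψ.mono (GeoPar_sub a)).exists_lipschitzOnWith inf_ne_zero (GeoPar_cvx a) (GeoPar_cpt a)

theorem GeoPar_ex (hS : 0 < S) (hψ : ContDiffOn ℝ ∞ ψ (GeoPar_D S))
    (hC : ∀ t ∈ Icc 0 S, ∀ χ, ∀ X ∈ I, |ψ (t, χ, X)| ≤ C) {X : ℝ} (hX : X ∈ I) :
    ∃ α : ℝ → ℝ, α 0 = 0 ∧ ∀ t ∈ Icc 0 S, HasDerivWithinAt α (ψ (t, α t, X)) (Icc 0 S) t := by
  have hC0 : 0 ≤ C := (abs_nonneg _).trans (hC 0 ⟨le_rfl, hS.le⟩ 0 X hX)
  obtain ⟨K, hK⟩ := GeoPar_lipψ hψ (C * S)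
  refine IsPicardLindelof.exists_eq_forall_mem_Icc_hasDerivWithinAt₀
    (f := fun t χ => ψ (t, χ, X)) (t₀ := ⟨0, le_rfl, hS.le⟩) (x₀ := 0)
    (a := .mk (C * S) (by positivity)) (L := .mk C hC0) (K := K)
    ⟨fun t ht => LipschitzOnWith.of_dist_le_mul fun x hx y hy => ?_, fun x _ => ?_,
      fun t ht x _ => hC t ht x X hX, ?_⟩
  · have := hK.dist_le_mul (t, x, X) ⟨ht, abs_le.1 (by simpa using hx), hX⟩ (t, y, X)
      ⟨ht, abs_le.1 (by simpa using hy), hX⟩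
    simpa [Prod.dist_eq] using this
  · exact hψ.continuousOn.comp (f := fun t : ℝ => (t, x, X)) (by fun_prop)
      fun t ht => ⟨ht, trivial, hX⟩
  · simp [hS.le]

theorem GeoPar_lip (hψ : ContDiffOn ℝ ∞ ψ (GeoPar_D S))
    (hC : ∀ t ∈ Icc 0 S, ∀ χ, ∀ X ∈ I, |ψ (t, χ, X)| ≤ C) : ∃ a M : ℝ, 0 ≤ M ∧
      ∀ X ∈ I, ∀ α : ℝ → ℝ, α 0 = 0 →
      (∀ t ∈ Icc 0 S, HasDerivWithinAt α (ψ (t, α t, X)) (Icc 0 S) t) →
      (∀ t ∈ Icc 0 S, (t, α t, X) ∈ GeoPar_Q S a) ∧ ∀ Y ∈ I, ∀ β : ℝ → ℝ, β 0 = 0 →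
      (∀ t ∈ Icc 0 S, HasDerivWithinAt β (ψ (t, β t, Y)) (Icc 0 S) t) →
      ∀ t ∈ Icc 0 S, |β t - α t| ≤ M * |Y - X| := by
  obtain ⟨K, hK⟩ := GeoPar_lipψ hψ (|C| * |gronwallBound 0 0 1 S|)
  have hb : ∀ X ∈ I, ∀ α : ℝ → ℝ, α 0 = 0 →
      (∀ t ∈ Icc 0 S, HasDerivWithinAt α (ψ (t, α t, X)) (Icc 0 S) t) → ∀ t ∈ Icc 0 S,
      (t, α t, X) ∈ GeoPar_Q S (|C| * |gronwallBound 0 0 1 S|) := fun X hX α h0 h t ht =>
    ⟨ht, abs_le.1 (GeoPar_gr le_rfl (abs_nonneg C) h0 h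
      (fun s hs => by simpa using (hC s hs _ X hX).trans (le_abs_self C)) ht), hX⟩
  refine ⟨_, K * |gronwallBound 0 K 1 S|, by positivity, fun X hX α h0 h =>
    ⟨hb X hX α h0 h, fun Y hY β h0' h' t ht => ?_⟩⟩
  rw [mul_right_comm]
  refine GeoPar_gr K.coe_nonneg (by positivity) (r := fun s => β s - α s) (by simp [h0, h0'])
    (fun s hs => (h' s hs).sub (h s hs)) (fun s hs => ?_) ht
  have := hK.dist_le_mul _ (hb Y hY β h0' h' s hs) _ (hb X hX α h0 h s hs)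
  refine this.trans ?_
  rw [← mul_add]
  refine mul_le_mul_of_nonneg_left ?_ K.coe_nonneg
  simp only [Prod.dist_eq, dist_self, Real.dist_eq, max_le_iff]
  exact ⟨by positivity, le_add_of_nonneg_right (abs_nonneg _),
    le_add_of_nonneg_left (abs_nonneg _)⟩

/-- The class of functions generated by the solution. -/
inductive GeoPar_Gen (S : ℝ) (χ : Fn) : Fn → Prop
  | base (G : ℝ × ℝ × ℝ → ℝ) : ContDiffOn ℝ ∞ G (GeoPar_D S) →
      GeoPar_Gen S χ fun t X => G (t, χ t X, X)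
  | add {u v : Fn} : GeoPar_Gen S χ u → GeoPar_Gen S χ v → GeoPar_Gen S χ fun t X => u t X + v t X
  | mul {u v : Fn} : GeoPar_Gen S χ u → GeoPar_Gen S χ v → GeoPar_Gen S χ fun t X => u t X * v t X
  | exp {u : Fn} : GeoPar_Gen S χ u → GeoPar_Gen S χ fun t X => Real.exp (u t X)
  | prim {u U : Fn} : GeoPar_Gen S χ u → GeoPar_C S U → (∀ X ∈ I, U 0 X = 0) →
      (∀ t ∈ Icc 0 S, ∀ X ∈ I, HasDerivWithinAt (fun s => U s X) (u t X) (Icc 0 S) t) →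
      GeoPar_Gen S χ U

theorem GeoPar_Gen.cont {χ u : Fn} (hχ : GeoPar_C S χ) (h : GeoPar_Gen S χ u) : GeoPar_C S u := by
  induction h with
  | base G hG =>
    exact hG.continuousOn.comp (f := fun p : ℝ × ℝ => (p.1, χ p.1 p.2, p.2))
      (continuousOn_fst.prodMk (hχ.prodMk continuousOn_snd)) fun p hp => ⟨hp.1, trivial, hp.2⟩
  | add _ _ h1 h2 => exact h1.add h2
  | mul _ _ h1 h2 => exact h1.mul h2
  | exp _ h1 => exact h1.rexp
  | prim _ h1 _ _ _ => exact h1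

theorem GeoPar_js (hS : 0 < S) (hψ : ContDiffOn ℝ ∞ ψ (GeoPar_D S))
    (hC : ∀ t ∈ Icc 0 S, ∀ χ, ∀ X ∈ I, |ψ (t, χ, X)| ≤ C) {χ : Fn} (h0 : ∀ X ∈ I, χ 0 X = 0)
    (hχ : ∀ t ∈ Icc 0 S, ∀ X ∈ I,
      HasDerivWithinAt (fun s => χ s X) (ψ (t, χ t X, X)) (Icc 0 S) t) : JS S χ := by
  obtain ⟨a, M, hM, H⟩ := GeoPar_lip hψ hC
  have hQ := fun X hX => (H X hX _ (h0 X hX) fun t ht => hχ t ht X hX).1
  have hL := fun X hX Y hY => (H X hX _ (h0 X hX) fun t ht => hχ t ht X hX).2 Y hY _ (h0 Y hY)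
    fun t ht => hχ t ht Y hY
  have hc : GeoPar_C S χ := continuousOn_prod_of_continuousOn_lipschitzOnWith' _ (.mk M hM)
    (fun t ht => LipschitzOnWith.of_dist_le_mul fun Y hY X hX => hL X hX Y hY t ht)
    fun X hX t ht => (hχ t ht X hX).continuousWithinAt
  have hU : UniqueDiffOn ℝ (GeoPar_D S) := (uniqueDiffOn_Icc hS).prod (uniqueDiffOn_univ.prod uI)
  have hD : ∀ {G : ℝ × ℝ × ℝ → ℝ}, ContDiffOn ℝ ∞ G (GeoPar_D S) →
      ContDiffOn ℝ ∞ (fderivWithin ℝ G (GeoPar_D S)) (GeoPar_D S) :=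
    fun hG => hG.fderivWithin hU inf_add_one
  have hF : ∀ {G : ℝ × ℝ × ℝ → ℝ}, ContDiffOn ℝ ∞ G (GeoPar_D S) → ∀ p ∈ GeoPar_D S,
      HasFDerivWithinAt G (fderivWithin ℝ G (GeoPar_D S) p) (GeoPar_D S) p :=
    fun hG p hp => (hG.differentiableOn inf_ne_zero p hp).hasFDerivWithinAt
  have hP : ∀ {G : ℝ × ℝ × ℝ → ℝ}, ContDiffOn ℝ ∞ G (GeoPar_D S) → ∀ v,
      GeoPar_Gen S χ fun t X => fderivWithin ℝ G (GeoPar_D S) (t, χ t X, X) v :=
    fun hG v => .base _ ((hD hG).clm_apply contDiffOn_const)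
  have hlin : ∀ (L : ℝ × ℝ × ℝ →L[ℝ] ℝ) (x y : ℝ),
      L (0, x, y) = L (0, 1, 0) * x + L (0, 0, 1) * y := fun L x y => by
    rw [mul_comm, mul_comm _ y, ← smul_eq_mul, ← smul_eq_mul, ← map_smul, ← map_smul, ← map_add]
    simp
  have gA := hP hψ (0, 1, 0)
  have gB := hP hψ (0, 0, 1)
  obtain ⟨U, c1, z1, d1⟩ := GeoPar_prim hS (gA.cont hc)
  have gU := gA.prim c1 z1 d1
  have gE := ((GeoPar_Gen.base (χ := χ) (fun _ => -1) contDiffOn_const).mul gU).exp.mul gB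
  obtain ⟨V, c2, z2, d2⟩ := GeoPar_prim hS (gE.cont hc)
  have gw := gU.exp.mul (gE.prim c2 z2 d2)
  obtain ⟨K, hK⟩ := (isCompact_Icc.prod isCompact_Icc).exists_bound_of_continuousOn (gA.cont hc)
  have hx : ∀ t ∈ Icc 0 S, ∀ X ∈ I, HasDerivWithinAt (χ t) (Real.exp (U t X) * V t X) I X := by
    intro t ht X hX
    refine GeoPar_var (K := |K|) (abs_nonneg K) hX h0 hχ
      (w := fun t => Real.exp (U t X) * V t X) (by simp [z2 X hX])
      (A := fun t => fderivWithin ℝ ψ (GeoPar_D S) (t, χ t X, X) (0, 1, 0))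
      (B := fun t => fderivWithin ℝ ψ (GeoPar_D S) (t, χ t X, X) (0, 0, 1))
      (fun s hs => ((d1 s hs X hX).exp.mul (d2 s hs X hX)).congr_deriv ?_)
      (fun s hs => (hK (s, X) ⟨hs, hX⟩).trans (le_abs_self K)) (fun ε hε => ?_) ht
    · rw [neg_one_mul, Real.exp_neg, mul_inv_cancel_left₀ (Real.exp_pos _).ne']
      ring
    obtain ⟨δ, hδ, Hδ⟩ := GeoPar_unif (GeoPar_cpt a) (GeoPar_cvx a)
      (fun p hp => (hF hψ p (GeoPar_sub a hp)).mono (GeoPar_sub a))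
      ((hD hψ).continuousOn.mono (GeoPar_sub a)) (ε := ε / (M + 1)) (by positivity)
    filter_upwards [self_mem_nhdsWithin, mem_nhdsWithin_of_mem_nhds
      (Metric.ball_mem_nhds X (show 0 < δ / (M + 1) by positivity))] with Y hY hd s hs
    have h1 : ‖(s, χ s Y, Y) - (s, χ s X, X)‖ ≤ (M + 1) * |Y - X| := by
      have := hL X hX Y hY s hs
      simp only [Prod.mk_sub_mk, Prod.norm_mk, sub_self, norm_zero, Real.norm_eq_abs, max_le_iff]
      exact ⟨by positivity, by nlinarith [abs_nonneg (Y - X)], by nlinarith [abs_nonneg (Y - X)]⟩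
    rw [Metric.mem_ball, Real.dist_eq, lt_div_iff₀' (by positivity)] at hd
    have h2 := (Hδ _ (hQ X hX s hs) _ (hQ Y hY s hs) (h1.trans_lt hd)).trans
      (mul_le_mul_of_nonneg_left h1 (by positivity))
    rw [Prod.mk_sub_mk, Prod.mk_sub_mk, sub_self, hlin, ← mul_assoc,
      div_mul_cancel₀ _ (by positivity)] at h2
    exact h2
  refine closed S {u | GeoPar_Gen S χ u} hS (fun u hu => ⟨hu.cont hc, ?_⟩) _
    (.base (fun p => p.2.1) (by fun_prop))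
  simp only [mem_ofPred_eq] at hu ⊢
  induction hu with
  | base G hG =>
    refine ⟨⟨_, ((hP hG (0, 1, 0)).mul gw).add (hP hG (0, 0, 1)), fun t ht X hX => ?_⟩,
      _, .base (fun p => fderivWithin ℝ G (GeoPar_D S) p (1, ψ p, 0))
        ((hD hG).clm_apply (contDiffOn_const.prodMk (hψ.prodMk contDiffOn_const))),
      fun t ht X hX => ?_⟩
    · refine ((hF hG (t, χ t X, X) ⟨ht, trivial, hX⟩).comp_hasDerivWithinAt X
        (f := fun Y => (t, χ t Y, Y)) ((hasDerivWithinAt_const X I t).prodMk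
          ((hx t ht X hX).prodMk (hasDerivWithinAt_id X I)))
        fun Y hY => show _ ∈ GeoPar_D S from ⟨ht, trivial, hY⟩).congr_deriv ?_
      rw [hlin, mul_one]
    · exact (hF hG (t, χ t X, X) ⟨ht, trivial, hX⟩).comp_hasDerivWithinAt t
        (f := fun s => (s, χ s X, X)) ((hasDerivWithinAt_id t _).prodMk
          ((hχ t ht X hX).prodMk (hasDerivWithinAt_const t _ X)))
        fun s hs => show _ ∈ GeoPar_D S from ⟨hs, trivial, hX⟩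
  | add _ _ h1 h2 =>
    obtain ⟨⟨v, gv, hv⟩, z, gz, hz⟩ := h1
    obtain ⟨⟨v', gv', hv'⟩, z', gz', hz'⟩ := h2
    exact ⟨⟨_, gv.add gv', fun t ht X hX => (hv t ht X hX).add (hv' t ht X hX)⟩,
      _, gz.add gz', fun t ht X hX => (hz t ht X hX).add (hz' t ht X hX)⟩
  | mul g1 g2 h1 h2 =>
    obtain ⟨⟨v, gv, hv⟩, z, gz, hz⟩ := h1
    obtain ⟨⟨v', gv', hv'⟩, z', gz', hz'⟩ := h2
    exact ⟨⟨_, (gv.mul g2).add (g1.mul gv'), fun t ht X hX => (hv t ht X hX).mul (hv' t ht X hX)⟩,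
      _, (gz.mul g2).add (g1.mul gz'), fun t ht X hX => (hz t ht X hX).mul (hz' t ht X hX)⟩
  | exp g1 h1 =>
    obtain ⟨⟨v, gv, hv⟩, z, gz, hz⟩ := h1
    exact ⟨⟨_, g1.exp.mul gv, fun t ht X hX => (hv t ht X hX).exp⟩,
      _, g1.exp.mul gz, fun t ht X hX => (hz t ht X hX).exp⟩
  | @prim u W g1 c3 z3 d3 h1 =>
    obtain ⟨⟨v, gv, hv⟩, z, gz, hz⟩ := h1
    obtain ⟨W', c4, z4, d4⟩ := GeoPar_prim hS (gv.cont hc)
    refine ⟨⟨W', gv.prim c4 z4 d4, fun t ht X hX => ?_⟩, u, g1, d3⟩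
    refine GeoPar_var (K := 0) le_rfl hX z3 d3 (w := fun t => W' t X) (z4 X hX) (A := fun _ => 0)
      (B := fun t => v t X) (fun s hs => by simpa using d4 s hs X hX) (by simp)
      (fun ε hε => ?_) ht
    obtain ⟨δ, hδ, Hδ⟩ := GeoPar_unif (isCompact_Icc.prod isCompact_Icc)
      ((convex_Icc 0 S).prod (convex_Icc 0 1)) (fun p hp => EClosed_fd (gz.cont hc) hv hz hp)
      (((gz.cont hc).smul continuousOn_const).add ((gv.cont hc).smul continuousOn_const)) hε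
    filter_upwards [self_mem_nhdsWithin, mem_nhdsWithin_of_mem_nhds (Metric.ball_mem_nhds X hδ)]
      with Y hY hd s hs
    have h1 : ‖(s, Y) - (s, X)‖ = |Y - X| := by simp [Prod.norm_mk]
    have h2 := Hδ (s, X) ⟨hs, hX⟩ (s, Y) ⟨hs, hY⟩ (h1.trans_lt hd)
    rw [h1] at h2
    simpa using h2

theorem par_ode : ParStmt := by
  intro T ψ hT hψ hC
  have hψ' : ∀ S < T, ContDiffOn ℝ ∞ ψ (GeoPar_D S) := fun S hS =>
    hψ.mono (prod_mono (fun _ ht => ⟨ht.1, ht.2.trans_lt hS⟩) subset_rfl)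
  have hex : ∀ S ∈ Ioo 0 T, ∀ X ∈ I, ∃ α : ℝ → ℝ, α 0 = 0 ∧
      ∀ t ∈ Icc 0 S, HasDerivWithinAt α (ψ (t, α t, X)) (Icc 0 S) t := fun S hS X hX =>
    (hC S hS.2).elim fun C h => GeoPar_ex hS.1 (hψ' S hS.2) h hX
  choose! α h0 hα using hex
  have hm : ∀ t ∈ Ico 0 T, (t + T) / 2 ∈ Ioo 0 T := fun t ht =>
    ⟨by linarith [ht.1], by linarith [ht.2]⟩
  have he : ∀ S ∈ Ioo 0 T, ∀ X ∈ I, ∀ t ∈ Icc 0 S, α ((t + T) / 2) X t = α S X t := by
    intro S hS X hX t ht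
    have ht' : t < T := ht.2.trans_lt hS.2
    obtain ⟨C, h⟩ := hC t ht'
    obtain ⟨a, M, -, H⟩ := GeoPar_lip (hψ' t ht') h
    have hs : Icc 0 t ⊆ Icc 0 S := Icc_subset_Icc_right ht.2
    have hs' : Icc 0 t ⊆ Icc 0 ((t + T) / 2) := Icc_subset_Icc_right (by linarith)
    have := (H X hX _ (h0 S hS X hX) fun s h => (hα S hS X hX s (hs h)).mono hs).2 X hX _
      (h0 _ (hm t ⟨ht.1, ht'⟩) X hX)
      (fun s h => (hα _ (hm t ⟨ht.1, ht'⟩) X hX s (hs' h)).mono hs') t ⟨ht.1, le_rfl⟩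
    simpa [sub_eq_zero] using this
  have hd : ∀ S ∈ Ioo 0 T, ∀ t ∈ Icc 0 S, ∀ X ∈ I,
      HasDerivWithinAt (fun s => α ((s + T) / 2) X s) (ψ (t, α ((t + T) / 2) X t, X))
        (Icc 0 S) t := fun S hS t ht X hX => by
    rw [he S hS X hX t ht]
    exact (hα S hS X hX t ht).congr (he S hS X hX) (he S hS X hX t ht)
  have hz : ∀ X ∈ I, α ((0 + T) / 2) X 0 = 0 := fun X hX => h0 _ (hm 0 ⟨le_rfl, hT⟩) X hX
  refine ⟨fun t X => α ((t + T) / 2) X t, JO.of_js fun S hS => (hC S hS.2).elim fun C h =>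
    GeoPar_js hS.1 (hψ' S hS.2) h hz (hd S hS), hz, fun t ht X hX => ?_⟩
  have h1 : t < (t + T) / 2 := by linarith [ht.2]
  exact (hd _ (hm t ht) t ⟨ht.1, h1.le⟩ X hX).mono_of_mem_nhdsWithin (Icc_mem h1)

end Vale.Agent.P244.Geo
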