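import Vale.Agent.P244.Defs
import Vale.Agent.P244.StmS
import Vale.Agent.P255.Trans
import Vale.Agent.P255.Chart

/-! P244, geometry: from the one-dimensional system to a Ricci flow on a sphere. Statements. -/

open Set Filter
open scoped Manifold ContDiff Topology RealInnerProductSpace

set_option maxSynthPendingDepth 3

namespace Vale.Agent.P244.Geo

open Vale.Agent.P255 (CM chrL)

/-- Jointly smooth on `[0,T) × [0,1]`. -/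
def JO (T : ℝ) (u : Fn) : Prop :=
  ContDiffOn ℝ ∞ (fun p : ℝ × ℝ => u p.1 p.2) (Ico 0 T ×ˢ I)

theorem JO.js {T S : ℝ} {u : Fn} (h : JO T u) (hS : S < T) : JS S u :=
  ContDiffOn.mono h (prod_mono (fun _ ht => ⟨ht.1, ht.2.trans_lt hS⟩) subset_rfl)

theorem Icc_mem {T S t : ℝ} (ht : t < S) : Icc 0 S ∈ 𝓝[Ico 0 T] t :=
  mem_nhdsWithin.2 ⟨Iio S, isOpen_Iio, ht, fun _ hs => ⟨hs.2.1, le_of_lt hs.1⟩⟩

theorem JO.of_js {T : ℝ} {u : Fn} (h : ∀ S ∈ Ioo 0 T, JS S u) : JO T u := by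
  rintro ⟨t, x⟩ ⟨ht, hx⟩
  obtain ⟨S, h1, h2⟩ := exists_between ht.2
  refine (h S ⟨ht.1.trans_lt h1, h2⟩ (t, x) ⟨⟨ht.1, h1.le⟩, hx⟩).mono_of_mem_nhdsWithin ?_
  rw [nhdsWithin_prod_eq]
  exact prod_mem_prod (Icc_mem h1) self_mem_nhdsWithin

/-- The time derivative of a `JO` function. -/
theorem JO.hasT {T S t x : ℝ} {u : Fn} (h : JO T u) (hS : S < T) (h0 : 0 ≤ t) (ht : t < S)
    (hx : x ∈ I) : HasDerivWithinAt (fun s => u s x) (dt S u t x) (Ico 0 T) t :=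
  ((h.js hS).hasT ⟨h0, ht.le⟩ hx).mono_of_mem_nhdsWithin (Icc_mem ht)

/-! ### The eigenvalues of the Ricci tensor of `dx²/Z + P g_{S^p} + R g_{S^q}` -/

noncomputable def kG (Z P : ℝ → ℝ) (x : ℝ) : ℝ :=
  kk (Z x) (deriv Z x) (P x) (deriv P x) (Z x * deriv (deriv P) x)

noncomputable def lG (Z P : ℝ → ℝ) (x : ℝ) : ℝ := ll (Z x) (P x) (deriv P x)

noncomputable def mG (Z P R : ℝ → ℝ) (x : ℝ) : ℝ :=
  mx (Z x) (P x) (deriv P x) (R x) (deriv R x)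

noncomputable def e0 (p q : ℝ) (Z P R : ℝ → ℝ) (x : ℝ) : ℝ := p * kG Z P x + q * kG Z R x

noncomputable def e1 (p q : ℝ) (Z P R : ℝ → ℝ) (x : ℝ) : ℝ :=
  kG Z P x + (p - 1) * lG Z P x + q * mG Z P R x

noncomputable def e2 (p q : ℝ) (Z P R : ℝ → ℝ) (x : ℝ) : ℝ :=
  kG Z R x + (q - 1) * lG Z R x + p * mG Z P R x

noncomputable def eR (p q : ℝ) (Z P R : ℝ → ℝ) (x : ℝ) : ℝ :=
  e0 p q Z P R x + p * e1 p q Z P R x + q * e2 p q Z P R x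

/-! ### The flow in a gauge with a vector field -/

def fZ (L : Fn) : Fn := fun t x => 4 * om x * (1 - om x * L t x)

def fP (u : Fn) : Fn := fun t x => x + x ^ 2 * u t x

def fR (v : Fn) : Fn := fun t x => (1 - x) + (1 - x) ^ 2 * v t x

def fJ (j : Fn) : Fn := fun t x => om x * j t x

/-- Ricci flow of `dx²/Z + P g_{S^p} + R g_{S^q}` modulo the vector field `J ∂_x`, with bounded
scalar curvature, and with `R(t,0)` not bounded below. -/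
structure Flow1 (p q T : ℝ) (L u v j : Fn) : Prop where
  pos : 0 < T
  sL : JO T L
  su : JO T u
  sv : JO T v
  sj : JO T j
  posL : ∀ t ∈ Ico 0 T, ∀ x ∈ I, 0 < 1 - om x * L t x
  posu : ∀ t ∈ Ico 0 T, ∀ x ∈ I, 0 < 1 + x * u t x
  posv : ∀ t ∈ Ico 0 T, ∀ x ∈ I, 0 < 1 + (1 - x) * v t x
  eqZ : ∀ t ∈ Ico 0 T, ∀ x ∈ Ioo (0 : ℝ) 1, HasDerivWithinAt (fun s => fZ L s x)
    (2 * e0 p q (fZ L t) (fP u t) (fR v t) x * fZ L t x - fJ j t x * deriv (fZ L t) x +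
      2 * deriv (fJ j t) x * fZ L t x) (Ico 0 T) t
  eqP : ∀ t ∈ Ico 0 T, ∀ x ∈ Ioo (0 : ℝ) 1, HasDerivWithinAt (fun s => fP u s x)
    (-2 * e1 p q (fZ L t) (fP u t) (fR v t) x * fP u t x - fJ j t x * deriv (fP u t) x) (Ico 0 T) t
  eqR : ∀ t ∈ Ico 0 T, ∀ x ∈ Ioo (0 : ℝ) 1, HasDerivWithinAt (fun s => fR v s x)
    (-2 * e2 p q (fZ L t) (fP u t) (fR v t) x * fR v t x - fJ j t x * deriv (fR v t) x) (Ico 0 T) t
  bdd : ∃ C, ∀ t ∈ Ico 0 T, ∀ x ∈ Ioo (0 : ℝ) 1, |eR p q (fZ L t) (fP u t) (fR v t) x| ≤ C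
  deg : ∀ ε > 0, ∃ t ∈ Ico 0 T, fR v t 0 < ε

/-! ### The flow in the true gauge -/

/-- The coefficient of `dX²`. -/
noncomputable def gA (a b c : ℝ → ℝ) (X : ℝ) : ℝ := c X + a X / (4 * X) + b X / (4 * (1 - X))

noncomputable def gZ (a b c : ℝ → ℝ) (X : ℝ) : ℝ := (gA a b c X)⁻¹

def gP (a : ℝ → ℝ) (X : ℝ) : ℝ := X * a X

def gR (b : ℝ → ℝ) (X : ℝ) : ℝ := (1 - X) * b X

/-- A static metric `a |dξ|² + b |dη|² + c dX²`, `X = |ξ|²`. -/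
structure Met (a b c : ℝ → ℝ) : Prop where
  sa : Sm a
  sb : Sm b
  sc : Sm c
  pa : ∀ X ∈ I, 0 < a X
  pb : ∀ X ∈ I, 0 < b X
  pA : ∀ X ∈ Ioo (0 : ℝ) 1, 0 < gA a b c X

/-- Ricci flow of `a |dξ|² + b |dη|² + c dX²`. -/
structure Pol (p q T : ℝ) (a b c : Fn) : Prop where
  pos : 0 < T
  sa : JO T a
  sb : JO T b
  sc : JO T c
  met : ∀ t ∈ Ico 0 T, Met (a t) (b t) (c t)
  eqA : ∀ t ∈ Ico 0 T, ∀ X ∈ Ioo (0 : ℝ) 1, HasDerivWithinAt (fun s => gA (a s) (b s) (c s) X)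
    (-2 * e0 p q (gZ (a t) (b t) (c t)) (gP (a t)) (gR (b t)) X * gA (a t) (b t) (c t) X)
    (Ico 0 T) t
  eqa : ∀ t ∈ Ico 0 T, ∀ X ∈ Ioo (0 : ℝ) 1, HasDerivWithinAt (fun s => a s X)
    (-2 * e1 p q (gZ (a t) (b t) (c t)) (gP (a t)) (gR (b t)) X * a t X) (Ico 0 T) t
  eqb : ∀ t ∈ Ico 0 T, ∀ X ∈ Ioo (0 : ℝ) 1, HasDerivWithinAt (fun s => b s X)
    (-2 * e2 p q (gZ (a t) (b t) (c t)) (gP (a t)) (gR (b t)) X * b t X) (Ico 0 T) t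
  bdd : ∃ C, ∀ t ∈ Ico 0 T, ∀ X ∈ Ioo (0 : ℝ) 1,
    |eR p q (gZ (a t) (b t) (c t)) (gP (a t)) (gR (b t)) X| ≤ C
  deg : ∀ ε > 0, ∃ t ∈ Ico 0 T, b t 0 < ε

/-- A scalar ODE depending smoothly on a parameter in `[0,1]`. -/
def ParStmt : Prop :=
  ∀ (T : ℝ) (ψ : ℝ × ℝ × ℝ → ℝ), 0 < T → ContDiffOn ℝ ∞ ψ (Ico 0 T ×ˢ univ ×ˢ I) →
    (∀ S < T, ∃ C, ∀ t ∈ Icc 0 S, ∀ χ, ∀ X ∈ I, |ψ (t, χ, X)| ≤ C) →
    ∃ χ : Fn, JO T χ ∧ (∀ X ∈ I, χ 0 X = 0) ∧ ∀ t ∈ Ico 0 T, ∀ X ∈ I,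
      HasDerivWithinAt (fun s => χ s X) (ψ (t, χ t X, X)) (Ico 0 T) t

/-- Change of variable in the eigenvalues. -/
def RepStmt : Prop :=
  ∀ (p q : ℝ) (Z P R Z' P' R' φ : ℝ → ℝ) (X : ℝ), ContDiffAt ℝ 2 φ X → 0 < deriv φ X →
    ContDiffAt ℝ 2 Z (φ X) → ContDiffAt ℝ 2 P (φ X) → ContDiffAt ℝ 2 R (φ X) →
    0 < P (φ X) → 0 < R (φ X) →
    (∀ᶠ Y in 𝓝 X, Z' Y = Z (φ Y) / deriv φ Y ^ 2 ∧ P' Y = P (φ Y) ∧ R' Y = R (φ Y)) →
    e0 p q Z' P' R' X = e0 p q Z P R (φ X) ∧ e1 p q Z' P' R' X = e1 p q Z P R (φ X) ∧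
      e2 p q Z' P' R' X = e2 p q Z P R (φ X)

def PolStmt : Prop :=
  ∀ (p q T : ℝ) (L u v j : Fn), Flow1 p q T L u v j → ∃ a b c, Pol p q T a b c

/-- The concrete system gives a `Flow1`. -/
def FlowStmt : Prop :=
  ∀ (d tm : ℝ) (f0 : Fin 3 → ℝ → ℝ) (f : Fin 3 → Fn), 0 < d → 0 < tm →
    (∀ T ∈ Ioo 0 tm, RSol d f0 T f) →
    (∃ C, ∀ t ∈ Ico 0 tm, ∀ x ∈ Ioo (0 : ℝ) 1, |evF (Rs d) f t x| ≤ C) →
    (∀ ε > 0, ∃ t ∈ Ico 0 tm, PhF d f t 0 < ε) →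
    ∃ L u v j, Flow1 (d + 1) 2 tm L u v j

/-! ### Ricci curvature in coordinates -/

section Coord

variable {E : Type} [NormedAddCommGroup E] [NormedSpace ℝ E]

/-- The map `u ↦ R(u,v)w`. -/
noncomputable def riemL (G : E → E →L[ℝ] E →L[ℝ] ℝ) (y v w : E) : E →L[ℝ] E :=
  ((fderiv ℝ (chrL G) y).flip v).flip w - (fderiv ℝ (chrL G) y v).flip w +
    (chrL G y).flip (chrL G y v w) - (chrL G y v).comp ((chrL G y).flip w)

/-- The Ricci tensor as a trace. -/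
noncomputable def ricT (G : E → E →L[ℝ] E →L[ℝ] ℝ) (y v w : E) : ℝ :=
  LinearMap.trace ℝ E (riemL G y v w : E →ₗ[ℝ] E)

end Coord

/-- Naturality of the Ricci tensor under local isometries. -/
def NatStmt : Prop :=
  ∀ (E E' : Type) [NormedAddCommGroup E] [NormedSpace ℝ E] [FiniteDimensional ℝ E]
    [NormedAddCommGroup E'] [NormedSpace ℝ E'] [FiniteDimensional ℝ E']
    (G : E → E →L[ℝ] E →L[ℝ] ℝ) (G' : E' → E' →L[ℝ] E' →L[ℝ] ℝ) (U : Set E) (U' : Set E')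
    (τ : E' → E), Module.finrank ℝ E' = Module.finrank ℝ E → CM G U → CM G' U' →
    ContDiffOn ℝ ∞ τ U' → MapsTo τ U' U →
    (∀ y ∈ U', ∀ v w, G' y v w = G (τ y) (fderiv ℝ τ y v) (fderiv ℝ τ y w)) →
    ∀ y ∈ U', Function.Bijective (fderiv ℝ τ y) ∧
      ∀ v w, ricT G' y v w = ricT G (τ y) (fderiv ℝ τ y v) (fderiv ℝ τ y w)

/-- `ric` and `scal` on the model space. -/
structure RicStmt : Prop where
  eq : ∀ (n : ℕ) (G : En n → En n →L[ℝ] En n →L[ℝ] ℝ) U, CM G U → ∀ y ∈ U, ∀ v w,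
    ric G y v w = ricT G y v w
  cont : ∀ (n : ℕ) (G : En n → En n →L[ℝ] En n →L[ℝ] ℝ) U, CM G U → ∀ v w,
    ContinuousOn (fun y => ric G y v w) U
  conts : ∀ (n : ℕ) (G : En n → En n →L[ℝ] En n →L[ℝ] ℝ) U, CM G U → ContinuousOn (scal G) U
  tr : ∀ (n : ℕ) (G : En n → En n →L[ℝ] En n →L[ℝ] ℝ) U, CM G U → ∀ y ∈ U,
    ∀ S : En n →ₗ[ℝ] En n, (∀ v w, ric G y v w = G y (S v) w) →
    scal G y = LinearMap.trace ℝ (En n) S

/-- The inner product as a bilinear map. -/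
noncomputable def ipL (F : Type) [NormedAddCommGroup F] [InnerProductSpace ℝ F] :
    F →L[ℝ] F →L[ℝ] ℝ := innerSL ℝ

@[simp] theorem ipL_apply {F : Type} [NormedAddCommGroup F] [InnerProductSpace ℝ F] (v w : F) :
    ipL F v w = ⟪v, w⟫ := rfl

section Warp

variable {E1 E2 : Type} [NormedAddCommGroup E1] [InnerProductSpace ℝ E1]
  [NormedAddCommGroup E2] [InnerProductSpace ℝ E2]

/-- The conformal factor of the round metric in stereographic coordinates. -/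
noncomputable def cf {F : Type} [NormedAddCommGroup F] (u : F) : ℝ := 4 / (1 + ‖u‖ ^ 2) ^ 2

noncomputable def b0 : (ℝ × E1 × E2) →L[ℝ] (ℝ × E1 × E2) →L[ℝ] ℝ :=
  (ContinuousLinearMap.mul ℝ ℝ).bilinearComp (ContinuousLinearMap.fst ℝ ℝ (E1 × E2))
    (ContinuousLinearMap.fst ℝ ℝ (E1 × E2))

noncomputable def q1 : (ℝ × E1 × E2) →L[ℝ] E1 :=
  (ContinuousLinearMap.fst ℝ E1 E2).comp (ContinuousLinearMap.snd ℝ ℝ (E1 × E2))

noncomputable def q2 : (ℝ × E1 × E2) →L[ℝ] E2 :=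
  (ContinuousLinearMap.snd ℝ E1 E2).comp (ContinuousLinearMap.snd ℝ ℝ (E1 × E2))

noncomputable def b1 : (ℝ × E1 × E2) →L[ℝ] (ℝ × E1 × E2) →L[ℝ] ℝ :=
  (ipL E1).bilinearComp q1 q1

noncomputable def b2 : (ℝ × E1 × E2) →L[ℝ] (ℝ × E1 × E2) →L[ℝ] ℝ :=
  (ipL E2).bilinearComp q2 q2

/-- The doubly warped metric in polar-stereographic coordinates. -/
noncomputable def wG (A P R : ℝ → ℝ) (y : ℝ × E1 × E2) :
    (ℝ × E1 × E2) →L[ℝ] (ℝ × E1 × E2) →L[ℝ] ℝ :=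
  A y.1 • b0 + (P y.1 * cf y.2.1) • b1 + (R y.1 * cf y.2.2) • b2

theorem wG_apply (A P R : ℝ → ℝ) (y v w : ℝ × E1 × E2) :
    wG A P R y v w = A y.1 * (v.1 * w.1) + P y.1 * cf y.2.1 * ⟪v.2.1, w.2.1⟫ +
      R y.1 * cf y.2.2 * ⟪v.2.2, w.2.2⟫ := by
  simp [wG, b0, b1, b2, q1, q2]

end Warp

/-- The Ricci tensor of the doubly warped metric. -/
def WarpStmt : Prop :=
  ∀ (E1 E2 : Type) [NormedAddCommGroup E1] [InnerProductSpace ℝ E1] [FiniteDimensional ℝ E1]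
    [NormedAddCommGroup E2] [InnerProductSpace ℝ E2] [FiniteDimensional ℝ E2]
    (A P R : ℝ → ℝ) (U : Set ℝ), IsOpen U → ContDiffOn ℝ ∞ A U → ContDiffOn ℝ ∞ P U →
    ContDiffOn ℝ ∞ R U → (∀ r ∈ U, 0 < A r ∧ 0 < P r ∧ 0 < R r) →
    CM (wG A P R : ℝ × E1 × E2 → _) (U ×ˢ univ) ∧ ∀ r ∈ U, ∀ v w : ℝ × E1 × E2,
      ricT (wG A P R) (r, 0, 0) v w =
        e0 (Module.finrank ℝ E1) (Module.finrank ℝ E2) (fun x => (A x)⁻¹) P R r *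
            (A r * (v.1 * w.1)) +
          e1 (Module.finrank ℝ E1) (Module.finrank ℝ E2) (fun x => (A x)⁻¹) P R r *
            (P r * 4 * ⟪v.2.1, w.2.1⟫) +
          e2 (Module.finrank ℝ E1) (Module.finrank ℝ E2) (fun x => (A x)⁻¹) P R r *
            (R r * 4 * ⟪v.2.2, w.2.2⟫)

/-! ### The sphere -/

/-- An orthogonal splitting `ℝ^(n+1) = ℝ^(p+1) ⊕ ℝ^(q+1)`. -/
structure Split (n p q : ℕ) where
  π1 : En (n + 1) →L[ℝ] En (p + 1)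
  π2 : En (n + 1) →L[ℝ] En (q + 1)
  ι1 : En (p + 1) →L[ℝ] En (n + 1)
  ι2 : En (q + 1) →L[ℝ] En (n + 1)
  dim : n = p + q + 1
  inn : ∀ v w, ⟪v, w⟫ = ⟪π1 v, π1 w⟫ + ⟪π2 v, π2 w⟫
  e11 : ∀ v, π1 (ι1 v) = v
  e21 : ∀ v, π2 (ι1 v) = 0
  e12 : ∀ v, π1 (ι2 v) = 0
  e22 : ∀ v, π2 (ι2 v) = v

variable {n p q : ℕ}

/-- `X = |ξ|²`. -/
noncomputable def Split.X (S : Split n p q) (z : En (n + 1)) : ℝ := ‖S.π1 z‖ ^ 2

/-- `dX`. -/
noncomputable def Split.dX (S : Split n p q) (z : En (n + 1)) : En (n + 1) →L[ℝ] ℝ :=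
  (2 : ℝ) • (ipL (En (p + 1)) (S.π1 z)).comp S.π1

/-- The form `a |dξ|² + b |dη|² + c dX²` with constant coefficients. -/
noncomputable def Split.form (S : Split n p q) (a b c : ℝ) (z : En (n + 1)) :
    En (n + 1) →L[ℝ] En (n + 1) →L[ℝ] ℝ :=
  a • (ipL (En (p + 1))).bilinearComp S.π1 S.π1 +
    b • (ipL (En (q + 1))).bilinearComp S.π2 S.π2 +
    c • (ContinuousLinearMap.mul ℝ ℝ).bilinearComp (S.dX z) (S.dX z)

theorem Split.dX_apply (S : Split n p q) (z v : En (n + 1)) :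
    S.dX z v = 2 * ⟪S.π1 z, S.π1 v⟫ := by simp [Split.dX]

theorem Split.form_apply (S : Split n p q) (a b c : ℝ) (z v w : En (n + 1)) :
    S.form a b c z v w =
      a * ⟪S.π1 v, S.π1 w⟫ + b * ⟪S.π2 v, S.π2 w⟫ + c * (S.dX z v * S.dX z w) := by
  simp [Split.form]

/-- The differential of the inclusion of the sphere. -/
noncomputable def dι (m : Sph n) : En n →L[ℝ] En (n + 1) :=
  mfderiv (𝓡 n) 𝓘(ℝ, En (n + 1)) (Subtype.val : Sph n → En (n + 1)) m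

/-- The metric on the sphere. -/
noncomputable def Split.met (S : Split n p q) (a b c : ℝ → ℝ) (m : Sph n) :
    En n →L[ℝ] En n →L[ℝ] ℝ :=
  (S.form (a (S.X m)) (b (S.X m)) (c (S.X m)) m).bilinearComp (dι m) (dι m)

/-- The inverse of a chart, as a map to the ambient space. -/
noncomputable def par (e : OpenPartialHomeomorph (Sph n) (En n)) (y : En n) : En (n + 1) :=
  (e.symm y : Sph n)

structure SphStmt : Prop where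
  split : ∀ p q : ℕ, Nonempty (Split (p + q + 1) p q)
  mem : ∀ (n p q : ℕ) (S : Split n p q) (m : Sph n), S.X m ∈ I
  smooth : ∀ (n : ℕ), ∀ e ∈ atlas (En n) (Sph n), ContDiffOn ℝ ∞ (par e) e.target
  ext : ∀ (n : ℕ), ∀ e ∈ atlas (En n) (Sph n), ∃ (F : En (n + 1) → En n) (W : Set (En (n + 1))),
    IsOpen W ∧ ContDiffOn ℝ ∞ F W ∧ (∀ z ∈ W, ‖z‖ = 1 → F z ∈ e.target ∧ par e (F z) = z) ∧
    ∀ y ∈ e.target, par e y ∈ W ∧ F (par e y) = y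
  gc_eq : ∀ (n p q : ℕ) (S : Split n p q) a b c, ∀ e ∈ atlas (En n) (Sph n), ∀ y ∈ e.target, ∀ v w,
    gc (S.met a b c) e y v w = S.form (a (S.X (par e y))) (b (S.X (par e y))) (c (S.X (par e y)))
      (par e y) (fderiv ℝ (par e) y v) (fderiv ℝ (par e) y w)
  tang : ∀ (n : ℕ), ∀ e ∈ atlas (En n) (Sph n), ∀ y ∈ e.target,
    Function.Injective (fderiv ℝ (par e) y) ∧
      ∀ V, ⟪par e y, V⟫ = 0 ↔ ∃ v, fderiv ℝ (par e) y v = V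
  symm : ∀ (n p q : ℕ) (S : Split n p q) a b c m v w, S.met a b c m v w = S.met a b c m w v
  pos : ∀ (n p q : ℕ) (S : Split n p q) a b c, Met a b c → ∀ m v, v ≠ 0 → 0 < S.met a b c m v v
  cm : ∀ (n p q : ℕ) (S : Split n p q) a b c, Met a b c → ∀ e ∈ atlas (En n) (Sph n),
    CM (gc (S.met a b c) e) e.target
  dense : ∀ (n p q : ℕ) (S : Split n p q), ∀ e ∈ atlas (En n) (Sph n),
    e.target ⊆ closure {y | y ∈ e.target ∧ S.X (par e y) ∈ Ioo (0 : ℝ) 1}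

/-- The Ricci tensor and the scalar curvature off the two focal spheres. -/
def OffStmt : Prop :=
  ∀ (n p q : ℕ) (S : Split n p q) (a b c : ℝ → ℝ), Met a b c → ∀ e ∈ atlas (En n) (Sph n),
    ∀ y ∈ e.target, ∀ X, S.X (par e y) = X → X ∈ Ioo (0 : ℝ) 1 →
    (∀ v w, ric (gc (S.met a b c) e) y v w =
      S.form (e1 p q (gZ a b c) (gP a) (gR b) X * a X) (e2 p q (gZ a b c) (gP a) (gR b) X * b X)
        (e0 p q (gZ a b c) (gP a) (gR b) X * gA a b c X -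
          e1 p q (gZ a b c) (gP a) (gR b) X * a X / (4 * X) -
          e2 p q (gZ a b c) (gP a) (gR b) X * b X / (4 * (1 - X)))
        (par e y) (fderiv ℝ (par e) y v) (fderiv ℝ (par e) y w)) ∧
    scal (gc (S.met a b c) e) y = eR p q (gZ a b c) (gP a) (gR b) X

/-- The conclusion. -/
def Bad (n : ℕ) (T : ℝ) : Prop :=
  ∃ g : ℝ → Sph n → En n →L[ℝ] En n →L[ℝ] ℝ, IsRicciFlow g T ∧ BddScal g T ∧ ¬ Extends g T

def AsmStmt : Prop :=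
  ∀ (p q : ℕ) (T : ℝ) (a b c : Fn), 1 ≤ q → Pol p q T a b c → Bad (p + q + 1) T

/-- The whole geometric part. -/
def GeoStmt : Prop :=
  ∀ (d : ℕ) (tm : ℝ) (f0 : Fin 3 → ℝ → ℝ) (f : Fin 3 → Fn), 0 < d → 0 < tm →
    (∀ T ∈ Ioo 0 tm, RSol d f0 T f) →
    (∃ C, ∀ t ∈ Ico 0 tm, ∀ x ∈ Ioo (0 : ℝ) 1, |evF (Rs d) f t x| ≤ C) →
    (∀ ε > 0, ∃ t ∈ Ico 0 tm, PhF d f t 0 < ε) → Bad (d + 4) tm

theorem geo_of (h1 : FlowStmt) (h2 : PolStmt) (h3 : AsmStmt) : GeoStmt := by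
  intro d tm f0 f hd htm hs hb hdeg
  obtain ⟨L, u, v, j, hF⟩ := h1 d tm f0 f (by exact_mod_cast hd) htm hs hb hdeg
  obtain ⟨a, b, c, hP⟩ := h2 _ _ _ _ _ _ _ hF
  exact h3 (d + 1) 2 tm a b c (by norm_num) (by simpa using hP)

end Vale.Agent.P244.Geo
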