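import Vale.Agent.P244.GeoStm

/-! Christoffel map of the doubly warped metric. -/

open Set Filter
open scoped Manifold ContDiff Topology RealInnerProductSpace

set_option maxSynthPendingDepth 3

namespace Vale.Agent.P244.Geo

open Vale.Agent.P255 (CM chrL)

section

variable {F : Type} [NormedAddCommGroup F] [InnerProductSpace ℝ F]

noncomputable def GeoWarp_k (u : F) : ℝ := -2 / (1 + ‖u‖ ^ 2)

omit [InnerProductSpace ℝ F] in
theorem GeoWarp_den (u : F) : 0 < 1 + ‖u‖ ^ 2 := by positivity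

omit [InnerProductSpace ℝ F] in
theorem GeoWarp_cf_pos (u : F) : 0 < cf u := by unfold cf; positivity

theorem GeoWarp_cf_smooth : ContDiff ℝ ∞ (cf : F → ℝ) :=
  contDiff_const.div ((contDiff_const.add (contDiff_norm_sq ℝ)).pow 2)
    fun u => pow_ne_zero 2 (GeoWarp_den u).ne'

theorem GeoWarp_k_smooth : ContDiff ℝ ∞ (GeoWarp_k : F → ℝ) :=
  contDiff_const.div (contDiff_const.add (contDiff_norm_sq ℝ)) fun u => (GeoWarp_den u).ne'

theorem GeoWarp_cf_has (u : F) :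
    HasFDerivAt (cf : F → ℝ) ((2 * GeoWarp_k u * cf u) • ipL F u) u := by
  have h0 := GeoWarp_den u
  have h1 : HasDerivAt (fun s : ℝ => 4 / (1 + s) ^ 2) (-8 / (1 + ‖u‖ ^ 2) ^ 3) (‖u‖ ^ 2) := by
    have h2 : HasDerivAt (fun s : ℝ => (1 + s) ^ 2) (2 * (1 + ‖u‖ ^ 2)) (‖u‖ ^ 2) := by
      refine (((hasDerivAt_id (‖u‖ ^ 2)).const_add 1).fun_pow 2).congr_deriv ?_
      simp
    refine ((hasDerivAt_const _ (4 : ℝ)).div h2 (pow_ne_zero 2 h0.ne')).congr_deriv ?_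
    field_simp; ring
  have h3 := h1.comp_hasFDerivAt u (hasStrictFDerivAt_norm_sq u).hasFDerivAt
  refine h3.congr_fderiv ?_
  ext p
  simp only [GeoWarp_k, cf, smul_apply, smul_eq_mul, ipL_apply, innerSL_apply_apply,
    two_smul, add_apply]
  field_simp; ring

end

variable {E1 E2 : Type} [NormedAddCommGroup E1] [InnerProductSpace ℝ E1]
  [NormedAddCommGroup E2] [InnerProductSpace ℝ E2] {A P R : ℝ → ℝ} {U : Set ℝ}

/-- The hypotheses on the warping functions. -/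
structure GeoWarp_H (A P R : ℝ → ℝ) (U : Set ℝ) : Prop where
  op : IsOpen U
  sA : ContDiffOn ℝ ∞ A U
  sP : ContDiffOn ℝ ∞ P U
  sR : ContDiffOn ℝ ∞ R U
  pos : ∀ r ∈ U, 0 < A r ∧ 0 < P r ∧ 0 < R r

theorem GeoWarp_cm (h : GeoWarp_H A P R U) : CM (wG A P R : ℝ × E1 × E2 → _) (U ×ˢ univ) := by
  have hm : MapsTo (Prod.fst : ℝ × E1 × E2 → ℝ) (U ×ˢ univ) U := fun y hy => hy.1
  refine ⟨h.op.prod isOpen_univ, ?_, fun y _ v w => ?_, fun y hy v hv => ?_⟩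
  · unfold wG
    refine (((h.sA.comp contDiffOn_fst hm).smul contDiffOn_const).add
      (((h.sP.comp contDiffOn_fst hm).mul ?_).smul contDiffOn_const)).add
      (((h.sR.comp contDiffOn_fst hm).mul ?_).smul contDiffOn_const)
    · exact (GeoWarp_cf_smooth.comp (contDiff_fst.comp contDiff_snd)).contDiffOn
    · exact (GeoWarp_cf_smooth.comp (contDiff_snd.comp contDiff_snd)).contDiffOn
  · rw [wG_apply, wG_apply, real_inner_comm v.2.1, real_inner_comm v.2.2, mul_comm v.1]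
  · obtain ⟨hA, hP, hR⟩ := h.pos y.1 hy.1
    rw [wG_apply, real_inner_self_eq_norm_sq, real_inner_self_eq_norm_sq]
    have h1 := mul_pos hP (GeoWarp_cf_pos y.2.1)
    have h2 := mul_pos hR (GeoWarp_cf_pos y.2.2)
    by_contra hn
    have e0 : 0 ≤ A y.1 * (v.1 * v.1) := mul_nonneg hA.le (mul_self_nonneg _)
    have e1 : 0 ≤ P y.1 * cf y.2.1 * ‖v.2.1‖ ^ 2 := by positivity
    have e2 : 0 ≤ R y.1 * cf y.2.2 * ‖v.2.2‖ ^ 2 := by positivity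
    have f0 : v.1 * v.1 = 0 := (mul_eq_zero.1 (by linarith : A y.1 * (v.1 * v.1) = 0)).resolve_left hA.ne'
    have f1 : ‖v.2.1‖ ^ 2 = 0 :=
      (mul_eq_zero.1 (by linarith : P y.1 * cf y.2.1 * ‖v.2.1‖ ^ 2 = 0)).resolve_left h1.ne'
    have f2 : ‖v.2.2‖ ^ 2 = 0 :=
      (mul_eq_zero.1 (by linarith : R y.1 * cf y.2.2 * ‖v.2.2‖ ^ 2 = 0)).resolve_left h2.ne'
    apply hv
    exact Prod.ext (mul_self_eq_zero.1 f0)
      (Prod.ext (norm_eq_zero.1 (pow_eq_zero_iff two_ne_zero |>.1 f1))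
        (norm_eq_zero.1 (pow_eq_zero_iff two_ne_zero |>.1 f2)))

theorem GeoWarp_has {f : ℝ → ℝ} (hU : IsOpen U) (hf : ContDiffOn ℝ ∞ f U) {r : ℝ} (hr : r ∈ U) :
    HasDerivAt f (deriv f r) r :=
  ((hf.contDiffAt (hU.mem_nhds hr)).differentiableAt (by simp)).hasDerivAt

theorem GeoWarp_has2 {f : ℝ → ℝ} (hU : IsOpen U) (hf : ContDiffOn ℝ ∞ f U) {r : ℝ} (hr : r ∈ U) :
    HasDerivAt (deriv f) (deriv (deriv f) r) r :=
  GeoWarp_has hU (hf.deriv_of_isOpen hU (by simp)) hr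

theorem GeoWarp_fst {f : ℝ → ℝ} {f' : ℝ} {y : ℝ × E1 × E2} (h : HasDerivAt f f' y.1) :
    HasFDerivAt (fun x : ℝ × E1 × E2 => f x.1) (f' • ContinuousLinearMap.fst ℝ ℝ (E1 × E2)) y :=
  h.comp_hasFDerivAt y hasFDerivAt_fst

theorem GeoWarp_dG [FiniteDimensional ℝ E1] [FiniteDimensional ℝ E2] (h : GeoWarp_H A P R U)
    {y : ℝ × E1 × E2} (hy : y ∈ U ×ˢ univ) (c a b : ℝ × E1 × E2) :
    fderiv ℝ (wG A P R) y c a b = deriv A y.1 * c.1 * (a.1 * b.1) +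
      (deriv P y.1 * c.1 + P y.1 * (2 * GeoWarp_k y.2.1 * ⟪y.2.1, c.2.1⟫)) * cf y.2.1 *
        ⟪a.2.1, b.2.1⟫ +
      (deriv R y.1 * c.1 + R y.1 * (2 * GeoWarp_k y.2.2 * ⟪y.2.2, c.2.2⟫)) * cf y.2.2 *
        ⟪a.2.2, b.2.2⟫ := by
  rw [← (GeoWarp_cm h).dg_eq hy]
  unfold P255.dg
  simp only [wG_apply]
  have hA := GeoWarp_fst (y := y) (GeoWarp_has h.op h.sA hy.1)
  have hP := GeoWarp_fst (y := y) (GeoWarp_has h.op h.sP hy.1)
  have hR := GeoWarp_fst (y := y) (GeoWarp_has h.op h.sR hy.1)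
  have c1 := (GeoWarp_cf_has y.2.1).comp y (q1 (E1 := E1) (E2 := E2)).hasFDerivAt
  have c2 := (GeoWarp_cf_has y.2.2).comp y (q2 (E1 := E1) (E2 := E2)).hasFDerivAt
  have := ((hA.mul_const (a.1 * b.1)).add ((hP.mul c1).mul_const ⟪a.2.1, b.2.1⟫)).add
    ((hR.mul c2).mul_const ⟪a.2.2, b.2.2⟫)
  refine (congrArg (fun T => T c) this.fderiv).trans ?_
  simp [q1, q2]
  ring

/-- The Christoffel map. -/
noncomputable def GeoWarp_G (A P R : ℝ → ℝ) (y v w : ℝ × E1 × E2) : ℝ × E1 × E2 :=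
  (deriv A y.1 / (2 * A y.1) * (v.1 * w.1) - deriv P y.1 / (2 * A y.1) * cf y.2.1 * ⟪v.2.1, w.2.1⟫ -
      deriv R y.1 / (2 * A y.1) * cf y.2.2 * ⟪v.2.2, w.2.2⟫,
    (deriv P y.1 / (2 * P y.1)) • (v.1 • w.2.1 + w.1 • v.2.1) + GeoWarp_k y.2.1 •
      (⟪y.2.1, v.2.1⟫ • w.2.1 + ⟪y.2.1, w.2.1⟫ • v.2.1 - ⟪v.2.1, w.2.1⟫ • y.2.1),
    (deriv R y.1 / (2 * R y.1)) • (v.1 • w.2.2 + w.1 • v.2.2) + GeoWarp_k y.2.2 •
      (⟪y.2.2, v.2.2⟫ • w.2.2 + ⟪y.2.2, w.2.2⟫ • v.2.2 - ⟪v.2.2, w.2.2⟫ • y.2.2))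

theorem GeoWarp_chr [FiniteDimensional ℝ E1] [FiniteDimensional ℝ E2] (h : GeoWarp_H A P R U)
    {y : ℝ × E1 × E2} (hy : y ∈ U ×ˢ univ) (v w : ℝ × E1 × E2) :
    P255.chr (wG A P R) y v w = GeoWarp_G A P R y v w := by
  refine (GeoWarp_cm h).ext hy fun z => ?_
  have h1 := (GeoWarp_cm h).koszul hy v w z
  rw [GeoWarp_dG h hy, GeoWarp_dG h hy, GeoWarp_dG h hy] at h1
  obtain ⟨hA, hP, hR⟩ := h.pos y.1 hy.1
  have h2 : 2 * wG A P R y (GeoWarp_G A P R y v w) z = 2 * wG A P R y (P255.chr (wG A P R) y v w) z := by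
    rw [h1, wG_apply]
    simp only [GeoWarp_G, inner_add_left, inner_sub_left, real_inner_smul_left]
    field_simp
    ring
  linarith

end Vale.Agent.P244.Geo
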