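import Vale.Agent.P244.MainE
import Vale.Agent.P244.GeoAll
import Vale.Agent.P244.LBasic
import Vale.Agent.P244.LGapAbs
import Vale.Agent.P244.LGap
import Vale.Agent.P244.LPert
import Vale.Agent.P244.LSob
import Vale.Agent.P244.LPoly
import Vale.Agent.P244.LModeDer
import Vale.Agent.P244.LIniStab
import Vale.Agent.P244.LCone
import Vale.Agent.P244.LTopo
import Vale.Agent.P244.LLip
import Vale.Agent.P244.LInterp
import Vale.Agent.P244.NDBar
import Vale.Agent.P244.NFar
import Vale.Agent.P244.NWin
import Vale.Agent.P244.NStep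
import Vale.Agent.P244.NMode
import Vale.Agent.P244.NSol
import Vale.Agent.P244.NGeo
import Vale.Agent.P244.NCompact
import Vale.Agent.P244.NRBar
import Vale.Agent.P244.NFBar
import Vale.Agent.P244.NLam
import Vale.Agent.P244.NPhiW
import Vale.Agent.P244.NRFin
import Vale.Agent.P244.NIniA
import Vale.Agent.P244.NIniB
import Vale.Agent.P244.NModeA
import Vale.Agent.P244.NPar
import Vale.Agent.P244.NApr
import Vale.Agent.P244.NSolA

/-! P244: everything put together. -/

open Set

namespace Vale.Agent.P244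

theorem aGap : GapStmt := gap lBasic (gapAbs lBasic)

theorem aPoly : PolyStmt := poly lBasic

theorem aModeDer : ModeDerStmt := modeDer lBasic

theorem aModeA : ModeAStmt := modeA lBasic aModeDer (modeStab lBasic)

theorem aGeo : GeoStmt := geo nearQ aDict

theorem aCompact : CompactStmt := compact nearQ aGrad

theorem aIniA : IniAStmt := iniA aPoly lBasic

theorem aPar : ParStmt :=
  par cone (out (sob lBasic aGap) aPoly)
    (mode nearQ aNearEq lBasic aGap (pert lBasic aGap) aPoly aModeDer aModeA)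
    (dBar touch boxs nearQ aGeq aEvo2 (wEq boxs nearQ aDict aGeq) lam
      (win nearQ aDict aGeq aEvo2 lip interp))
    phiW aCompact (far touch boxs nearQ aSmK aSys aDict aGeq aEvo2 aCompact) aIniA
    (iniB nearQ aDict aIniA iniCurv) (iniMode lBasic aPoly) lBasic

theorem aApr : AprStmt :=
  apr boot nearQ aGeq aGeo aModeA aPar
    (step aGeo (rBar touch boxs nearQ aDict aGeq aEvo2) (fBar touch boxs nearQ aNearEq) aModeA)

theorem aSol : SolStmt :=
  sol aSys aMax aCon aModeA aGap topo (rFin touch boxs aGron nearQ aDict aGeq aEvo2 phiW) aApr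
    (solA aSys aStab aCompact aModeA)

theorem main : ∃ n, 4 ≤ n ∧ ∃ T > 0, Geo.Bad n T := by
  obtain ⟨k, T, f0, f, hk, hT, hs, ⟨C, hC⟩, hd⟩ := aSol
  have e : ((2 * k : ℕ) : ℝ) = 2 * k := by push_cast; rfl
  refine ⟨2 * k + 4, by omega, T, hT, Geo.geo mid aDict aGeq aTrans (2 * k) T f0 f (by omega) hT
    (by rw [e]; exact hs) ⟨C, fun t ht x hx => by rw [e]; exact hC t ht x (Ioo_subset_Icc_self hx)⟩
    fun ε hε => ?_⟩
  have ht : max 0 (T - ε) ∈ Ico 0 T := ⟨le_max_left _ _, max_lt hT (by linarith)⟩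
  refine ⟨_, ht, ?_⟩
  rw [e]
  linarith [hd _ ht, le_max_right 0 (T - ε)]

end Vale.Agent.P244
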