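import Vale.Agent.P244.SDefs
import Vale.Agent.P244.Main

/-! P244: from the working definitions to the definitions of the statement. -/

open scoped Manifold ContDiff

namespace Vale.Agent.P244

variable {n : ℕ}

theorem br_ric (G : En n → En n →L[ℝ] En n →L[ℝ] ℝ) :
    St.ric (EuclideanSpace.basisFun (Fin n) ℝ).toBasis G = ric G := by
  funext y v w
  simp only [St.ric, ric, OrthonormalBasis.coe_toBasis, OrthonormalBasis.coe_toBasis_repr_apply,
    EuclideanSpace.basisFun_apply, EuclideanSpace.basisFun_repr]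
  rfl

theorem br_scal (G : En n → En n →L[ℝ] En n →L[ℝ] ℝ) :
    St.scal (EuclideanSpace.basisFun (Fin n) ℝ).toBasis G = scal G := by
  funext y
  simp only [St.scal, scal, St.gram, br_ric, OrthonormalBasis.coe_toBasis,
    EuclideanSpace.basisFun_apply]

variable {M : Type} [TopologicalSpace M] [ChartedSpace (En n) M]

theorem br_flow (g : ℝ → M → En n →L[ℝ] En n →L[ℝ] ℝ) (T : ℝ) :
    St.IsRicciFlow (EuclideanSpace.basisFun (Fin n) ℝ).toBasis g T ↔ IsRicciFlow g T := by
  simp only [St.IsRicciFlow, br_ric]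
  rfl

theorem br_bdd (g : ℝ → M → En n →L[ℝ] En n →L[ℝ] ℝ) (T : ℝ) :
    St.BddScal (EuclideanSpace.basisFun (Fin n) ℝ).toBasis g T ↔ BddScal g T := by
  simp only [St.BddScal, br_scal]
  rfl

theorem br_ext (g : ℝ → M → En n →L[ℝ] En n →L[ℝ] ℝ) (T : ℝ) :
    St.Extends (EuclideanSpace.basisFun (Fin n) ℝ).toBasis g T ↔ Extends g T := by
  simp only [St.Extends, br_flow]
  rfl

theorem main' : ∃ n : ℕ, 4 ≤ n ∧ ∃ (M : Type) (_ : TopologicalSpace M)
    (_ : ChartedSpace (EuclideanSpace ℝ (Fin n)) M) (_ : IsManifold (𝓡 n) ∞ M),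
    CompactSpace M ∧ T2Space M ∧ ConnectedSpace M ∧
      St.HasBadFlow M (EuclideanSpace.basisFun (Fin n) ℝ).toBasis := by
  obtain ⟨n, hn, T, hT, g, h1, h2, h3⟩ := main
  refine ⟨n, hn, Sph n, inferInstance, inferInstance, inferInstance, inferInstance, inferInstance,
    isConnected_iff_connectedSpace.1 (isConnected_sphere ?_ _ zero_le_one),
    T, hT, g, (br_flow g T).2 h1, (br_bdd g T).2 h2, fun h => h3 ((br_ext g T).1 h)⟩
  rw [← Module.finrank_eq_rank, finrank_euclideanSpace_fin]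
  exact_mod_cast (by omega : 1 < n + 1)

end Vale.Agent.P244
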